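import Vale.Agent.P262.Pack

/-! Splitting one class into three parts and a small frozen set. -/

set_option linter.unusedSectionVars false

namespace Vale.Agent.P262
open Finset Matrix

variable {Θ ι : Type} [Fintype Θ] [DecidableEq Θ] [Fintype ι] [DecidableEq ι]
variable {l : Lv Θ} {v : Matrix ι Θ ℝ} {B : Finset ι}

lemma ch_nonneg (X : Finset ι) (i : ι) : 0 ≤ ch X i := by unfold ch; split_ifs <;> norm_num
lemma ch_le_one (X : Finset ι) (i : ι) : ch X i ≤ 1 := by unfold ch; split_ifs <;> norm_num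
lemma ch_abs (X : Finset ι) (i : ι) : |ch X i| ≤ 1 :=
  (abs_of_nonneg (ch_nonneg X i)).trans_le (ch_le_one X i)
lemma ch_zero {X : Finset ι} (i : ι) (h : i ∉ X) : ch X i = 0 := if_neg h

lemma ch_union {X Y : Finset ι} (h : ∀ i, ch X i + ch Y i ≤ 1) : ch (X ∪ Y) = ch X + ch Y := by
  funext i
  have := h i
  by_cases h1 : i ∈ X <;> by_cases h2 : i ∈ Y <;> simp [ch, h1, h2] at this ⊢
  norm_num at this

lemma subset_of_ch {X Y : Finset ι} (h : ∀ i, ch X i ≤ ch Y i) : X ⊆ Y := by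
  intro i hi
  by_contra hn
  have := h i
  simp [ch, hi, hn] at this
  norm_num at this

lemma ww0 : ww 0 = 1 / 4 := rfl
lemma ww1 : ww 1 = 1 / 2 := rfl
lemma ww2 : ww 2 = 1 / 4 := rfl

lemma side (hl : l.OK) {R C : Finset ι} {f ξ ζ z y : ι → ℝ} {D : Θ → ℝ} (hξ : Noise l v ξ)
    (hζ : Noise l v ζ) (hz : Pulled l v R (ξ ᵥ* v + (f ᵥ* v - (1 / 4 : ℝ) • D)) z)
    (hy : Pulled l v C (ζ ᵥ* v) y) (hf : wn l.gt (f ᵥ* v) ≤ 10 ^ 14 * l.r)
    (hD : wn l.gt D ≤ 10 ^ 14 * l.r) :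
    wn l.G ((f + ξ - z + ζ) ᵥ* v - (1 / 4 : ℝ) • D - y ᵥ* v) ≤ 8 * 10 ^ 14 * l.r := by
  refine (hl.wn_G _).trans ?_
  have e1 : (f + ξ - z + ζ) ᵥ* v - (1 / 4 : ℝ) • D - y ᵥ* v =
      (ξ ᵥ* v + (f ᵥ* v - (1 / 4 : ℝ) • D) - z ᵥ* v) + (ζ ᵥ* v - y ᵥ* v) := by
    simp only [add_vecMul, sub_vecMul]; abel
  rw [e1]
  have a1 := wn_add_le l.ga (ξ ᵥ* v + (f ᵥ* v - (1 / 4 : ℝ) • D) - z ᵥ* v) (ζ ᵥ* v - y ᵥ* v)
  have a2 := wn_add_le l.gt (ξ ᵥ* v + (f ᵥ* v - (1 / 4 : ℝ) • D) - z ᵥ* v) (ζ ᵥ* v - y ᵥ* v)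
  have a3 := wn_sub_le l.gt (ξ ᵥ* v + (f ᵥ* v - (1 / 4 : ℝ) • D)) (z ᵥ* v)
  have a4 := wn_add_le l.gt (ξ ᵥ* v) (f ᵥ* v - (1 / 4 : ℝ) • D)
  have a5 := wn_sub_le l.gt (f ᵥ* v) ((1 / 4 : ℝ) • D)
  have a6 := wn_sub_le l.gt (ζ ᵥ* v) (y ᵥ* v)
  rw [wn_smul, abs_of_pos (by norm_num)] at a5
  linarith [hz.ac, hz.th, hy.ac, hy.th, hξ.th, hζ.th, l.r0]

structure CoreOut (l : Lv Θ) (v : Matrix ι Θ ℝ) (B : Finset ι) (η η' : ι → ℝ) (D : Θ → ℝ)
    (H : Finset ι) (P C : Fin 3 → Finset ι) : Prop where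
  part : ch B = ch H + ch (P 0) + ch (P 1) + ch (P 2)
  ne : B.Nonempty → H.Nonempty
  card : H.card ≤ 10 ^ 6
  sub : ∀ s, C s ⊆ P s
  cP : ∀ s, wn l.wN (ch (P s) ᵥ* vv v - (2 * ww s) • l.dT) ≤ 2 * ww s * l.r
  cC : ∀ s, wn l.wN (ch (C s) ᵥ* vv v - (2 * ww s / 3) • l.dT) ≤ 2 * ww s * l.r
  mP : ∀ s, ms l.gt v (P s) ≤ ww s * (12 * 10 ^ 18 * l.β)
  hH : wn l.gt (ch H ᵥ* v) ≤ 10 ^ 14 * l.r
  lo : ∀ t, ∃ y, Carr l v (1 / 100) (C t) y ∧
    wn l.G ((ch (P 0) - (1 / 4 : ℝ) • ch B + η) ᵥ* v - (1 / 4 : ℝ) • D - y ᵥ* v) ≤ 8 * 10 ^ 14 * l.r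
  hi : ∀ t, ∃ y, Carr l v (1 / 100) (C t) y ∧
    wn l.G ((ch (P 2) + ch H - (1 / 4 : ℝ) • ch B + η') ᵥ* v - (1 / 4 : ℝ) • D - y ᵥ* v)
      ≤ 8 * 10 ^ 14 * l.r

/-- The part of a carrier function outside the frozen set, together with a correction. -/
lemma shift_fun (h : Ctx l v B) {R H : Finset ι} (hH : H ⊆ B) (hc : H.card ≤ 10 ^ 6)
    {η z : ι → ℝ} (hη : Carr l v (1 / 60) R η) (hz : Carr l v (1 / 100) (R \ H) z) :
    (∀ k, k ∉ R \ H → (ch H * η - η - z) k = 0) ∧ (∀ k, |(ch H * η - η - z) k| ≤ 1 / 50) ∧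
      wn l.wN ((ch H * η - η - z) ᵥ* vv v) ≤ 11 / 300 * l.r := by
  refine ⟨fun k hk => ?_, fun k => ?_, ?_⟩
  · by_cases h1 : k ∈ H
    · simp [ch, h1, hz.supp k hk]
    · have h2 : k ∉ R := fun h2 => hk (mem_sdiff.2 ⟨h2, h1⟩)
      simp [hη.supp k h2, hz.supp k hk]
  · have a1 := abs_le.1 (hη.small k)
    have a2 := abs_le.1 (hz.small k)
    by_cases h1 : k ∈ H <;> simp only [ch, h1, Pi.sub_apply, Pi.mul_apply, if_true, if_false] <;>
      rw [abs_le] <;> constructor <;> linarith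
  · have a1 := (h.few hH hc (y := ch H * η) (fun k hk => by simp [ch, hk]) fun k => by
      rw [Pi.mul_apply, abs_mul]
      exact mul_le_one₀ (ch_abs _ _) (abs_nonneg _) ((hη.small k).trans (by norm_num))).2
    rw [sub_vecMul, sub_vecMul]
    linarith [wn_sub_le l.wN ((ch H * η) ᵥ* vv v - η ᵥ* vv v) (z ᵥ* vv v),
      wn_sub_le l.wN ((ch H * η) ᵥ* vv v) (η ᵥ* vv v), hη.cv, hz.cv]

lemma shift_vec (h : Ctx l v B) {R H : Finset ι} (hH : H ⊆ B) (hc : H.card ≤ 10 ^ 6)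
    {η : ι → ℝ} (hη : Carr l v (1 / 60) R η) {c : ℝ} (hc' : |c| ≤ 3 / 4) {D : Θ → ℝ}
    (hD : nn D ≤ 10 ^ 12) :
    nn ((c • ch H + ch H * η) ᵥ* v - (1 / 4 : ℝ) • D) ≤ 4 * 10 ^ 12 ∧
      wn l.gt ((c • ch H + ch H * η) ᵥ* v) ≤ 10 ^ 14 * l.r := by
  have s1 : ∀ k, k ∉ H → (c • ch H + ch H * η) k = 0 := fun k hk => by simp [ch, hk]
  have s2 : ∀ k, |(c • ch H + ch H * η) k| ≤ 1 := fun k => by
    have a1 := abs_le.1 (hη.small k)
    have a2 := abs_le.1 hc'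
    by_cases h1 : k ∈ H <;> simp only [ch, h1, Pi.add_apply, Pi.mul_apply, Pi.smul_apply,
      smul_eq_mul, if_true, if_false] <;> rw [abs_le] <;> constructor <;> linarith
  refine ⟨?_, (h.few hH hc s1 s2).1⟩
  have a1 := nn_few h.hv hc s1 s2
  generalize (c • ch H + ch H * η) ᵥ* v = x at a1
  have : nn (x - (1 / 4 : ℝ) • D) ≤ 2 * nn x + 2 * nn D := by
    simp only [nn, mul_sum, ← sum_add_distrib]
    refine sum_le_sum fun θ _ => ?_
    simp only [Pi.sub_apply, Pi.smul_apply, smul_eq_mul]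
    nlinarith [sq_nonneg (x θ + 1 / 4 * D θ), sq_nonneg (D θ)]
  linarith

theorem core (h : Ctx l v B) {R : Finset ι} (hR : R ⊆ B)
    (hB : wn l.wN (ch B ᵥ* vv v - (2 : ℝ) • l.dT) ≤ 5 / 3 * l.r)
    (hRc : wn l.wN (ch R ᵥ* vv v - (2 / 3 : ℝ) • l.dT) ≤ 5 / 3 * l.r) {η η' : ι → ℝ}
    (hη : Carr l v (1 / 60) R η) (hη' : Carr l v (1 / 60) R η') {D : Θ → ℝ}
    (hD : nn D ≤ 10 ^ 12) (hDt : wn l.gt D ≤ 10 ^ 14 * l.r) :
    ∃ H P C, CoreOut l v B η η' D H P C := by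
  have r0 := l.r0
  have hβ := h.ok.βpos
  obtain ⟨H, hH, hc, hne, hμ⟩ := h.heavy
  have fH := h.few hH hc (ch_zero (X := H)) (ch_abs H)
  have fRH := h.few hH hc (y := ch (R ∩ H))
    (fun k hk => ch_zero k fun h' => hk (mem_inter.1 h').2) (ch_abs _)
  have fHR := h.few hH hc (y := ch (H \ R))
    (fun k hk => ch_zero k fun h' => hk (mem_sdiff.1 h').1) (ch_abs _)
  have eR : ch (R \ H) = ch R - ch (R ∩ H) := by
    funext k; by_cases h1 : k ∈ R <;> by_cases h2 : k ∈ H <;> simp [ch, h1, h2]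
  have eA : ch ((B \ H) \ R) = ch B - ch R - ch (H \ R) := by
    funext k
    have := @hR k
    have := @hH k
    by_cases h1 : k ∈ R <;> by_cases h2 : k ∈ H <;> by_cases h3 : k ∈ B <;> simp_all [ch]
  have eB : ch B - ch H = ch ((B \ H) \ R) + ch (R \ H) := by
    funext k
    have := @hR k
    have := @hH k
    by_cases h1 : k ∈ R <;> by_cases h2 : k ∈ H <;> by_cases h3 : k ∈ B <;> simp_all [ch]
  have sA : (B \ H) \ R ⊆ B := sdiff_subset.trans sdiff_subset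
  have sR : R \ H ⊆ B := sdiff_subset.trans hR
  have hN : wn l.wN (ch (R \ H) ᵥ* vv v - (2 / 3 : ℝ) • l.dT) ≤ 2 * l.r := by
    rw [eR, sub_vecMul, sub_right_comm]
    linarith [wn_sub_le l.wN (ch R ᵥ* vv v - (2 / 3 : ℝ) • l.dT) (ch (R ∩ H) ᵥ* vv v), fRH.2]
  have v0 := shift_vec h hH hc hη (c := -1 / 4) (by norm_num [abs_le]) hD
  have v2 := shift_vec h hH hc hη' (c := 3 / 4) (by norm_num [abs_le]) hD
  obtain ⟨C, A', ξ, ζ, z, z', pA, sC, sA', eC, eξ, nξ, nζ, pz, pz'⟩ := stageA h sA sR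
    (fun k hk => hμ k (sA hk) (mem_sdiff.1 (mem_sdiff.1 hk).1).2) hN v0.1 v2.1
  generalize (B \ H) \ R = A at *
  have cC : ∀ s, wn l.wN (ch (C s) ᵥ* vv v - (2 * ww s / 3) • l.dT) ≤ 2 * ww s * l.r := by
    intro s
    have e : ch (C s) ᵥ* vv v - (2 * ww s / 3) • l.dT = (ww s / 2) • ((ch B ᵥ* vv v - (2 : ℝ) • l.dT)
        - (ch R ᵥ* vv v - (2 / 3 : ℝ) • l.dT) - ch (H \ R) ᵥ* vv v) + ζ s ᵥ* vv v := by
      rw [eC, eA]; simp only [add_vecMul, sub_vecMul, smul_vecMul]; module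
    have w1 := ww_ge s
    have a1 := wn_sub_le l.wN ((ch B ᵥ* vv v - (2 : ℝ) • l.dT)
        - (ch R ᵥ* vv v - (2 / 3 : ℝ) • l.dT)) (ch (H \ R) ᵥ* vv v)
    have a2 := wn_sub_le l.wN (ch B ᵥ* vv v - (2 : ℝ) • l.dT) (ch R ᵥ* vv v - (2 / 3 : ℝ) • l.dT)
    have a3 := mul_le_mul_of_nonneg_left (show _ ≤ 67 / 20 * l.r by linarith [fHR.2] :
      wn l.wN ((ch B ᵥ* vv v - (2 : ℝ) • l.dT) - (ch R ᵥ* vv v - (2 / 3 : ℝ) • l.dT)
        - ch (H \ R) ᵥ* vv v) ≤ _) (show 0 ≤ ww s / 2 by linarith)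
    rw [e]
    refine (wn_add_le _ _ _).trans ?_
    rw [wn_smul, abs_of_pos (by linarith)]
    linarith [(nζ s).cv, mul_le_mul_of_nonneg_right w1 r0]
  obtain ⟨u1, u2, u3⟩ := shift_fun h hH hc hη pz.carr
  obtain ⟨u1', u2', u3'⟩ := shift_fun h hH hc hη' pz'.carr
  have q1 : ∀ i, ch A' i + ch (C 0) i + ch (C 1) i + ch (C 2) i + ch (R \ H) i + ch H i = ch B i := by
    intro i
    have a1 := congrFun pA i
    have a2 := congrFun eB i
    simp only [Pi.add_apply, Pi.sub_apply] at a1 a2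
    linarith
  have q2 : ∀ s i, ch A' i + ch (C s) i + ch (R \ H) i + ch H i ≤ ch B i := by
    intro s i
    have := q1 i
    have := ch_nonneg (C 0) i
    have := ch_nonneg (C 1) i
    have := ch_nonneg (C 2) i
    fin_cases s <;> simp only [Fin.zero_eta, Fin.mk_one, Fin.reduceFinMk] <;> linarith
  have eU : ch (A' ∪ R \ H) = ch A' + ch (R \ H) := ch_union fun i => by
    linarith [q2 0 i, ch_nonneg (C 0) i, ch_nonneg H i, ch_le_one B i]
  obtain ⟨u, hu0, hu2, hu1⟩ : ∃ u : Fin 3 → ι → ℝ, u 0 = ch H * η - η - z ∧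
      u 2 = ch H * η' - η' - z' ∧ u 1 = -(u 0 + u 2) :=
    ⟨![ch H * η - η - z, -((ch H * η - η - z) + (ch H * η' - η' - z')), ch H * η' - η' - z'],
      rfl, rfl, rfl⟩
  rw [← hu0] at u1 u2 u3
  rw [← hu2] at u1' u2' u3'
  have us : ∀ s k, k ∉ R \ H → u s k = 0 := by
    intro s k hk
    fin_cases s
    · exact u1 k hk
    · simp [hu1, u1 k hk, u1' k hk]
    · exact u1' k hk
  have ub : ∀ s k, |u s k| ≤ 1 / 25 := by
    intro s k
    have a1 := u2 k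
    have a2 := u2' k
    have a3 := abs_add_le (u 0 k) (u 2 k)
    fin_cases s <;> simp only [Fin.zero_eta, Fin.mk_one, Fin.reduceFinMk]
    · linarith
    · rw [hu1, Pi.neg_apply, abs_neg, Pi.add_apply]; linarith
    · linarith
  have uc : ∀ s, wn l.wN (u s ᵥ* vv v) ≤ ww s * (11 / 75 * l.r) := by
    intro s
    have a3 := wn_add_le l.wN (u 0 ᵥ* vv v) (u 2 ᵥ* vv v)
    fin_cases s <;> simp only [Fin.zero_eta, Fin.mk_one, Fin.reduceFinMk, ww0, ww1, ww2]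
    · linarith
    · rw [hu1, neg_vecMul, wn_neg, add_vecMul]; linarith
    · linarith
  obtain ⟨E, ρ, pE, eE, nρ, pρ⟩ := stageR h (A := A' ∪ R \ H) (union_subset (sA'.trans sA) sR)
    (fun k hk => by
      have hk' : 1 ≤ ch (A' ∪ R \ H) k := by simp only [ch, if_pos hk, le_refl]
      rw [eU, Pi.add_apply] at hk'
      have a1 := q2 0 k
      have a2 := ch_nonneg (C 0) k
      refine hμ k ?_ fun h' => ?_
      · by_contra h'
        linarith [ch_zero k h', ch_nonneg H k]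
      · have : ch H k = 1 := if_pos h'
        linarith [ch_le_one B k])
    (fun s k hk => us s k fun h' => hk (mem_union_right _ h')) ub
    (fun k => by simp [Fin.sum_univ_three, hu1]) (C := C) (fun s => (sC s).trans sA)
    (fun s => by linarith [cC s, mul_le_mul_of_nonneg_right (ww_le s) r0])
  have q3 : ∀ s i, ch (E s) i ≤ ch A' i + ch (R \ H) i := by
    intro s i
    have a1 := congrFun pE i
    rw [eU] at a1
    simp only [Pi.add_apply] at a1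
    have := ch_nonneg (E 0) i
    have := ch_nonneg (E 1) i
    have := ch_nonneg (E 2) i
    fin_cases s <;> simp only [Fin.zero_eta, Fin.mk_one, Fin.reduceFinMk] <;> linarith
  have eP : ∀ s, ch (C s ∪ E s) = ch (C s) + ch (E s) := fun s => ch_union fun i => by
    linarith [q2 s i, q3 s i, ch_nonneg H i, ch_le_one B i]
  have eP2 : ∀ s, ch (C s ∪ E s) = ww s • (ch B - ch H) + ξ s + u s + ρ s := by
    intro s
    have := eξ s
    rw [eP, eE, eU, eB]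
    linear_combination (norm := module) this
  refine ⟨H, fun s => C s ∪ E s, C, ?_, hne, hc, fun s => subset_union_left, fun s => ?_, cC,
    fun s => ?_, fH.1, fun t => ?_, fun t => ?_⟩
  · funext i
    have a1 := congrFun pE i
    rw [eU] at a1
    simp only [eP, Pi.add_apply] at a1 ⊢
    linarith [q1 i]
  · have e : ch (C s ∪ E s) ᵥ* vv v - (2 * ww s) • l.dT = ww s • ((ch B ᵥ* vv v - (2 : ℝ) • l.dT)
        - ch H ᵥ* vv v) + ξ s ᵥ* vv v + u s ᵥ* vv v + ρ s ᵥ* vv v := by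
      rw [eP2]; simp only [add_vecMul, sub_vecMul, smul_vecMul]; module
    have w1 := ww_ge s
    have a1 := wn_sub_le l.wN (ch B ᵥ* vv v - (2 : ℝ) • l.dT) (ch H ᵥ* vv v)
    have a3 := mul_le_mul_of_nonneg_left (show _ ≤ 42 / 25 * l.r by linarith [fH.2] :
      wn l.wN ((ch B ᵥ* vv v - (2 : ℝ) • l.dT) - ch H ᵥ* vv v) ≤ _) (show 0 ≤ ww s by linarith)
    rw [e]
    refine (wn_add_le _ _ _).trans ((add_le_add_left ((wn_add_le _ _ _).trans
      (add_le_add_left (wn_add_le _ _ _) _)) _).trans ?_)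
    rw [wn_smul, abs_of_pos (by linarith)]
    linarith [(nξ s).cv, (nρ s).cv, uc s, mul_le_mul_of_nonneg_right w1 r0]
  · have m0 : ∀ i, 0 ≤ mu l v i := fun i => en_nonneg h.ok.gt0 _
    have e0 : ∀ X, ms l.gt v X = ch X ⬝ᵥ mu l v := fun X => (ch_dot X (mu l v)).symm
    have w1 := ww_ge s
    have a1 := h.mass
    have a2 := ms_nonneg h.ok.gt0 v H
    have a3 : u s ⬝ᵥ mu l v ≤ 1 / 25 * (ch B ⬝ᵥ mu l v) := by
      simp only [dotProduct, mul_sum]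
      refine sum_le_sum fun i _ => ?_
      rw [← mul_assoc]
      refine mul_le_mul_of_nonneg_right ?_ (m0 i)
      by_cases hi : i ∈ R \ H
      · simp only [ch, if_pos (sR hi), mul_one]; exact (abs_le.1 (ub s i)).2
      · rw [us s i hi]; linarith [ch_nonneg B i]
    rw [e0] at a1 a2 ⊢
    have a4 := mul_le_mul_of_nonneg_left (show ch B ⬝ᵥ mu l v - ch H ⬝ᵥ mu l v ≤ 9 * 10 ^ 18 * l.β by
      linarith) (show 0 ≤ ww s by linarith)
    rw [eP2]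
    simp only [add_dotProduct, smul_dotProduct, sub_dotProduct, smul_eq_mul]
    linarith [(abs_le.1 (nξ s).ma).2, (abs_le.1 (nρ s).ma).2, mul_le_mul_of_nonneg_right w1 hβ.le]
  · obtain ⟨y, hy⟩ := pρ 0 t
    refine ⟨y, hy.carr, ?_⟩
    have e : ch (C 0 ∪ E 0) - (1 / 4 : ℝ) • ch B + η =
        ((-1 / 4 : ℝ) • ch H + ch H * η) + ξ 0 - z + ρ 0 := by
      rw [eP2, hu0, ww0]; module
    rw [e]
    exact side h.ok (nξ 0) (nρ 0) pz hy v0.2 hDt
  · obtain ⟨y, hy⟩ := pρ 2 t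
    refine ⟨y, hy.carr, ?_⟩
    have e : ch (C 2 ∪ E 2) + ch H - (1 / 4 : ℝ) • ch B + η' =
        ((3 / 4 : ℝ) • ch H + ch H * η') + ξ 2 - z' + ρ 2 := by
      rw [eP2, hu2, ww2]; module
    rw [e]
    exact side h.ok (nξ 2) (nρ 2) pz' hy v2.2 hDt

end Vale.Agent.P262
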