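import Vale.Agent.P262.LinAlg

/-! Simultaneous control of many linear and quadratic error terms in one rounding. -/

set_option linter.unusedSectionVars false

namespace Vale.Agent.P262
open Finset Matrix

variable {ι S α β : Type} [Fintype ι] [Fintype S] [Fintype α] [Fintype β]

/-- The scalar rounding error of a coefficient function. -/
def xi (p a : ι → S → ℝ) (σ : ι → S) : ι → ℝ := fun k => a k (σ k) - ∑ s, p k s * a k s

/-- `Φ` holds for every rounding whose error in some feature map of mass `m` is at most `8000`. -/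
def Ctl (p : ι → S → ℝ) (m : ℝ) (Φ : (ι → S) → Prop) : Prop :=
  ∃ (κ : Type) (_ : Fintype κ) (u : ι → S → κ → ℝ), (∀ k s, ∑ x, u k s x ^ 2 ≤ m) ∧
    ∀ σ : ι → S, (∀ x, |∑ k, (u k (σ k) x - ∑ s, p k s * u k s x)| ≤ 8000) → Φ σ

variable {p a : ι → S → ℝ}

lemma Ctl.mono {m : ℝ} {Φ Ψ : (ι → S) → Prop} (h : Ctl p m Φ) (hi : ∀ σ, Φ σ → Ψ σ) :
    Ctl p m Ψ := by
  obtain ⟨κ, i, u, h1, h2⟩ := h
  exact ⟨κ, i, u, h1, fun σ hσ => hi σ (h2 σ hσ)⟩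

lemma Ctl.and {m m' : ℝ} {Φ Ψ : (ι → S) → Prop} (h : Ctl p m Φ) (h' : Ctl p m' Ψ) :
    Ctl p (m + m') fun σ => Φ σ ∧ Ψ σ := by
  obtain ⟨κ, i, u, h1, h2⟩ := h
  obtain ⟨κ', i', u', h1', h2'⟩ := h'
  refine ⟨κ ⊕ κ', inferInstance, fun k s => Sum.elim (u k s) (u' k s), fun k s => ?_,
    fun σ hσ => ⟨h2 σ fun x => hσ (Sum.inl x), h2' σ fun x => hσ (Sum.inr x)⟩⟩
  rw [Fintype.sum_sum_type]
  exact add_le_add (h1 k s) (h1' k s)

lemma Ctl.all3 {m : ℝ} {Φ : Fin 3 → (ι → S) → Prop} (h : ∀ j, Ctl p m (Φ j)) :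
    Ctl p (m + (m + m)) fun σ => ∀ j, Φ j σ :=
  ((h 0).and ((h 1).and (h 2))).mono fun σ hσ j => by
    fin_cases j
    exacts [hσ.1, hσ.2.1, hσ.2.2]

lemma Ctl.run [Nonempty S] (hS : Fintype.card S ≤ 4) (h0 : ∀ i s, 0 ≤ p i s)
    (h1 : ∀ i, ∑ s, p i s = 1) {m : ℝ} (hm : m ≤ 49) {Φ : (ι → S) → Prop} (h : Ctl p m Φ) :
    ∃ σ, Φ σ := by
  obtain ⟨κ, i, u, hu, h2⟩ := h
  obtain ⟨σ, hσ⟩ := round_multi hS (fun k s x => u k s x / 7) p (fun k s => by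
    simp only [div_pow, ← sum_div]
    have := hu k s
    linarith) h0 h1
  refine ⟨σ, h2 σ fun x => ?_⟩
  have := hσ x
  simp only [← mul_div_assoc, ← sum_div, ← sub_div] at this
  rw [abs_div, abs_of_pos (show (0 : ℝ) < 7 by norm_num)] at this
  linarith

lemma Ctl.base (p : ι → S → ℝ) (ha : ∀ k s, |a k s| ≤ 1) {g : Matrix ι α ℝ}
    (hg : ∀ k, nn (g k) ≤ 1) : Ctl p 1 fun σ => ∀ x, |(xi p a σ ᵥ* g) x| ≤ 8000 := by
  refine ⟨α, inferInstance, fun k s x => a k s * g k x, fun k s => ?_, fun σ hσ x => ?_⟩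
  · simp only [mul_pow, ← mul_sum]
    exact mul_le_one₀ ((sq_le_one_iff_abs_le_one _).2 (ha k s)) (nn_nonneg _) (hg k)
  · refine le_of_eq_of_le (congrArg _ ?_) (hσ x)
    simp only [vecMul, dotProduct, xi, sub_mul, sum_mul, mul_assoc]

lemma Ctl.quad (p : ι → S → ℝ) (ha : ∀ k s, |a k s| ≤ 1) {g : Matrix ι α ℝ}
    (hg : ∀ k, nn (g k) ≤ 1) (M : Matrix α β ℝ) {w : β → ℝ} (hw : ∀ b, 0 ≤ w b) :
    Ctl p 1 fun σ => en w ((xi p a σ ᵥ* g) ᵥ* M) ≤ 8000 ^ 2 * ms w M univ := by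
  obtain ⟨U, hU, hq⟩ := quad_basis M hw
  refine (Ctl.base p ha (g := g * U) fun k => ?_).mono fun σ hσ => hq _ _ fun y => ?_
  · exact (hU (g k)).trans_le (hg k)
  · rw [vecMul_vecMul]; exact hσ y

lemma xi_supp {B : Finset ι} (hB : ∀ k, k ∉ B → ∀ s, a k s = 0) (σ : ι → S) :
    ∀ k, k ∉ B → xi p a σ k = 0 := fun k hk => by simp [xi, hB k hk]

lemma Ctl.thin (p : ι → S → ℝ) (ha : ∀ k s, |a k s| ≤ 1) {B : Finset ι}
    (hB : ∀ k, k ∉ B → ∀ s, a k s = 0) (u : Matrix ι β ℝ) {w : β → ℝ} (hw : ∀ b, 0 ≤ w b) :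
    Ctl p 1 fun σ => en w (xi p a σ ᵥ* u) ≤ 8000 ^ 2 * ms w u B := by
  classical
  refine (Ctl.quad p ha (g := 1) (fun k => ?_) (rows B u) hw).mono fun σ hσ => ?_
  · simp [nn, one_apply]
  · rwa [vecMul_one, vecMul_rows (xi_supp hB σ), ms_rows] at hσ

lemma Ctl.scal (p : ι → S → ℝ) (ha : ∀ k s, |a k s| ≤ 1) {B : Finset ι}
    (hB : ∀ k, k ∉ B → ∀ s, a k s = 0) (μ : ι → ℝ) {t : ℝ} (ht : 0 < t)
    (hμ : ∀ k ∈ B, |μ k| ≤ t) : Ctl p 1 fun σ => |xi p a σ ⬝ᵥ μ| ≤ 8000 * t := by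
  refine (Ctl.base p ha (g := rows B (of fun k (_ : Unit) => μ k / t)) fun k => ?_).mono
    fun σ hσ => ?_
  · simp only [nn, rows, univ_unique, sum_singleton, of_apply]
    split_ifs with h
    · rw [sq_le_one_iff_abs_le_one, abs_div, abs_of_pos ht]
      exact (div_le_one ht).2 (hμ k h)
    · norm_num
  · have := hσ ()
    rw [vecMul_rows (xi_supp hB σ)] at this
    simp only [vecMul, dotProduct, of_apply, ← mul_div_assoc, ← sum_div] at this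
    rwa [abs_div, abs_of_pos ht, div_le_iff₀ ht] at this

lemma Ctl.lin (p : ι → S → ℝ) (ha : ∀ k s, |a k s| ≤ 1) {g : Matrix ι α ℝ}
    (hg : ∀ k, nn (g k) ≤ 1) {Y : Matrix α β ℝ} {t : ℝ} (ht : 0 < t)
    (hY : ∀ x, nn (x ᵥ* Y) ≤ t ^ 2 * nn x) :
    Ctl p 1 fun σ => ∀ b, |((xi p a σ ᵥ* g) ᵥ* Y) b| ≤ 8000 * t := by
  refine (Ctl.base p ha (g := t⁻¹ • (g * Y)) fun k => ?_).mono fun σ hσ b => ?_
  · have h1 := (hY (g k)).trans (mul_le_of_le_one_right (sq_nonneg t) (hg k))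
    have h2 : nn ((t⁻¹ • (g * Y)) k) = (t ^ 2)⁻¹ * nn (g k ᵥ* Y) := by
      simp only [nn, mul_sum]
      exact sum_congr rfl fun b _ => by
        rw [Matrix.smul_apply, smul_eq_mul, mul_pow, inv_pow]; rfl
    rw [h2, inv_mul_le_iff₀ (by positivity), mul_one]; exact h1
  · have := hσ b
    rw [vecMul_smul, Pi.smul_apply, smul_eq_mul, abs_mul, abs_inv, abs_of_pos ht,
      inv_mul_le_iff₀ ht, ← vecMul_vecMul] at this
    linarith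

lemma Ctl.quad_shift (p : ι → S → ℝ) (ha : ∀ k s, |a k s| ≤ 1) {g : Matrix ι α ℝ}
    (hg : ∀ k, nn (g k) ≤ 1) (M : Matrix α β ℝ) {w : β → ℝ} (hw : ∀ b, 0 ≤ w b) {e : α → ℝ}
    (he : nn e ≤ 4 * 10 ^ 12) :
    Ctl p 1 fun σ => en w ((xi p a σ ᵥ* g + e) ᵥ* M) ≤ 10 ^ 13 * ms w M univ := by
  refine (Ctl.quad p ha hg M hw).mono fun σ hσ => ?_
  rw [add_vecMul]
  have h1 := en_add_le hw ((xi p a σ ᵥ* g) ᵥ* M) (e ᵥ* M)
  have h2 := en_vecMul_le hw e M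
  have h3 := ms_nonneg hw M univ
  have h4 := mul_le_mul_of_nonneg_right he h3
  linarith

end Vale.Agent.P262
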