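import Mathlib

/-! A sign-choosing lemma for finitely supported distributions with large self-overlap
(argument of Karingula and Lovett). -/

namespace Vale.Agent.P262
open Function

lemma min_sort (a b c d : ℝ) :
    min a c + min b d ≤ min (max a b) (max c d) + min (min a b) (min c d) := by
  simp only [min_def, max_def]; split_ifs <;> linarith

lemma finsum_sumType {X Y M : Type} [AddCommMonoid M] (f : X ⊕ Y → M)
    (h1 : HasFiniteSupport fun x => f (Sum.inl x)) (h2 : HasFiniteSupport fun y => f (Sum.inr y)) :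
    ∑ᶠ z, f z = ∑ᶠ x, f (Sum.inl x) + ∑ᶠ y, f (Sum.inr y) := by
  classical
  rw [finsum_eq_sum_of_support_subset f (s := h1.toFinset.disjSum h2.toFinset),
    Finset.sum_disjSum, finsum_eq_sum _ h1, finsum_eq_sum _ h2]
  rintro (x | y) hx
  · simpa using h1.mem_toFinset.2 hx
  · simpa using h2.mem_toFinset.2 hx

lemma fs_sumType {X Y M : Type} [Zero M] (f : X ⊕ Y → M)
    (h1 : HasFiniteSupport fun x => f (Sum.inl x)) (h2 : HasFiniteSupport fun y => f (Sum.inr y)) :
    HasFiniteSupport f := by
  refine ((h1.image Sum.inl).union (h2.image Sum.inr)).subset ?_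
  rintro (x | y) hx
  · exact Or.inl ⟨x, hx, rfl⟩
  · exact Or.inr ⟨y, hx, rfl⟩

section shift
variable {G X M : Type} [AddCommGroup G] [AddAction G X]

lemma fs_shift [Zero M] {f : X → M} (hf : HasFiniteSupport f) (g : G) :
    HasFiniteSupport fun x => f (g +ᵥ x) :=
  hf.fun_comp_of_injective (AddAction.injective g)

lemma finsum_shift [AddCommMonoid M] (f : X → M) (g : G) : ∑ᶠ x, f (g +ᵥ x) = ∑ᶠ x, f x :=
  finsum_comp_equiv (AddAction.toPerm g) (f := f)

end shift

/-- The convex set used in the lifting step. -/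
def liftSet {E : Type} [AddCommGroup E] [Module ℝ E] (K : Set E) (w : E) : Set (E × ℝ) :=
  {z | ∃ a : ℝ, |a| ≤ 1 - z.2 ∧ z.1 + (a + z.2) • w ∈ K ∧ z.1 + (a - z.2) • w ∈ K}

lemma convex_liftSet {E : Type} [AddCommGroup E] [Module ℝ E] {K : Set E} (hK : Convex ℝ K)
    (w : E) : Convex ℝ (liftSet K w) := by
  rintro ⟨x, s⟩ ⟨a, ha, h1, h2⟩ ⟨y, t⟩ ⟨b, hb, h3, h4⟩ p q hp hq hpq
  simp only at ha h1 h2 hb h3 h4
  refine ⟨p * a + q * b, ?_, ?_, ?_⟩
  · have := abs_add_le (p * a) (q * b)
    rw [abs_mul, abs_mul, abs_of_nonneg hp, abs_of_nonneg hq] at this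
    have h5 := mul_le_mul_of_nonneg_left ha hp
    have h6 := mul_le_mul_of_nonneg_left hb hq
    simp only [Prod.snd_add, Prod.smul_snd, smul_eq_mul]
    nlinarith
  · have := hK h1 h3 hp hq hpq
    have e : p • (x + (a + s) • w) + q • (y + (b + t) • w) =
        (p • (x, s) + q • (y, t)).1 + (p * a + q * b + (p • (x, s) + q • (y, t)).2) • w := by
      simp only [Prod.snd_add, Prod.smul_snd, smul_eq_mul, Prod.fst_add, Prod.smul_fst]
      module
    rwa [e] at this
  · have := hK h2 h4 hp hq hpq
    have e : p • (x + (a - s) • w) + q • (y + (b - t) • w) =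
        (p • (x, s) + q • (y, t)).1 + (p * a + q * b - (p • (x, s) + q • (y, t)).2) • w := by
      simp only [Prod.snd_add, Prod.smul_snd, smul_eq_mul, Prod.fst_add, Prod.smul_fst]
      module
    rwa [e] at this

lemma seg_mem {E : Type} [AddCommGroup E] [Module ℝ E] {K : Set E} (hK : Convex ℝ K)
    {z w : E} {a b c : ℝ} (h1 : z + a • w ∈ K) (h2 : z + b • w ∈ K) (hab : a < b)
    (hc1 : a ≤ c) (hc2 : c ≤ b) : z + c • w ∈ K := by
  have hd : 0 < b - a := by linarith
  have := hK h1 h2 (a := (b - c) / (b - a)) (b := (c - a) / (b - a))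
    (div_nonneg (by linarith) hd.le) (div_nonneg (by linarith) hd.le) (by field_simp; ring)
  have e : ((b - c) / (b - a)) • (z + a • w) + ((c - a) / (b - a)) • (z + b • w) = z + c • w := by
    have e1 : (b - c) / (b - a) + (c - a) / (b - a) = 1 := by field_simp; ring
    have e2 : (b - c) / (b - a) * a + (c - a) / (b - a) * b = c := by field_simp; ring
    calc _ = ((b - c) / (b - a) + (c - a) / (b - a)) • z
          + ((b - c) / (b - a) * a + (c - a) / (b - a) * b) • w := by module
      _ = _ := by rw [e1, e2, one_smul]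
  rwa [e] at this

lemma liftSet_sign {E : Type} [AddCommGroup E] [Module ℝ E] {K : Set E} (hK : Convex ℝ K)
    {z u : E} {β : ℝ} (hβ : 1 / 3 ≤ β) (h : (z, β) ∈ liftSet K ((3 : ℝ) • u)) :
    ∃ e : ℝ, (e = 1 ∨ e = -1) ∧ z + e • u ∈ K := by
  obtain ⟨a, ha, h1, h2⟩ := h
  simp only at ha h1 h2
  have ha' := abs_le.1 ha
  rcases le_total 0 a with h0 | h0
  · refine ⟨1, Or.inl rfl, ?_⟩
    have := seg_mem hK h2 h1 (c := 1 / 3) (by linarith) (by linarith) (by linarith)
    rwa [smul_smul, show (1 / 3 : ℝ) * 3 = 1 by norm_num] at this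
  · refine ⟨-1, Or.inr rfl, ?_⟩
    have := seg_mem hK h2 h1 (c := -1 / 3) (by linarith) (by linarith) (by linarith)
    rwa [smul_smul, show (-1 / 3 : ℝ) * 3 = -1 by norm_num] at this

theorem KL {G : Type} [AddCommGroup G] (n : ℕ) : ∀ (X : Type) [AddAction G X] (E : Type)
    [AddCommGroup E] [Module ℝ E] (ψ : G →+ E) (φ : X → E) (P : X → ℝ) (v : Fin n → G)
    (K : Set E), (∀ (g : G) x, φ (g +ᵥ x) = ψ g + φ x) → HasFiniteSupport P → (∀ x, 0 ≤ P x) →
    ∑ᶠ x, P x = 1 → (∀ i, 2 / 3 ≤ ∑ᶠ x, min (P x) (P ((6 • v i) +ᵥ x))) → Convex ℝ K →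
    (∀ x, P x ≠ 0 → φ x ∈ K) →
    ∃ ε : Fin n → ℝ, (∀ i, ε i = 1 ∨ ε i = -1) ∧
      (∑ᶠ x, P x • φ x) + ∑ i, ε i • ψ (v i) ∈ K := by
  induction n with
  | zero =>
    intro X _ E _ _ ψ φ P v K _ _ h0 h1 _ hK hs
    refine ⟨fun _ => 1, fun _ => Or.inl rfl, ?_⟩
    simpa using hK.finsum_mem h0 h1 hs
  | succ n ih =>
    intro X _ E _ _ ψ φ P v K hφ hf h0 h1 hov hK hs
    set w : G := 3 • v (Fin.last n) with hw
    let A : X → ℝ := fun x => P (w +ᵥ x)
    let B : X → ℝ := fun x => P ((-w) +ᵥ x)
    have fA : HasFiniteSupport A := fs_shift hf w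
    have fB : HasFiniteSupport B := fs_shift hf (-w)
    let P' : X ⊕ X → ℝ := Sum.elim (fun x => max (A x) (B x) / 2) (fun x => min (A x) (B x) / 2)
    let φ' : X ⊕ X → E × ℝ := Sum.elim (fun x => (φ x, 0)) (fun x => (φ x, 1))
    let ψ' : G →+ E × ℝ := (AddMonoidHom.inl E ℝ).comp ψ
    have f1 : HasFiniteSupport fun x => max (A x) (B x) / 2 := by
      simp only [div_eq_mul_inv]; exact (fA.max fB).mul_left _
    have f2 : HasFiniteSupport fun x => min (A x) (B x) / 2 := by
      simp only [div_eq_mul_inv]; exact (fA.min fB).mul_left _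
    have sA : ∑ᶠ x, A x = 1 := (finsum_shift P w).trans h1
    have sB : ∑ᶠ x, B x = 1 := (finsum_shift P (-w)).trans h1
    have hmm : ∀ x, max (A x) (B x) / 2 + min (A x) (B x) / 2 = (A x + B x) * 2⁻¹ := by
      intro x; have := max_add_min (A x) (B x); linarith
    have hψw : ψ w = (3 : ℝ) • ψ (v (Fin.last n)) := by
      rw [hw, map_nsmul, ← Nat.cast_smul_eq_nsmul ℝ]; norm_num
    obtain ⟨ε, hε, hmem⟩ := ih (X ⊕ X) (E × ℝ) ψ' φ' P' (fun i => v i.castSucc)
      (liftSet K (ψ w))
      (by
        rintro g (x | x)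
        · simp [φ', ψ', hφ]
        · simp [φ', ψ', hφ])
      (fs_sumType _ f1 f2)
      (by
        rintro (x | x)
        · exact div_nonneg (le_max_of_le_left (h0 _)) (by norm_num)
        · exact div_nonneg (le_min (h0 _) (h0 _)) (by norm_num))
      (by
        rw [finsum_sumType _ f1 f2]
        simp only [P', Sum.elim_inl, Sum.elim_inr]
        rw [← finsum_add_distrib f1 f2]
        simp only [hmm]
        rw [← finsum_mul, finsum_add_distrib fA fB, sA, sB]; norm_num)
      (by
        intro i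
        set u : G := 6 • v i.castSucc with hu
        have g1 := f1.min (fs_shift f1 u)
        have g2 := f2.min (fs_shift f2 u)
        have g3 := fA.min (fs_shift fA u)
        have g4 := fB.min (fs_shift fB u)
        rw [finsum_sumType _ g1 g2]
        simp only [P', Sum.vadd_inl, Sum.vadd_inr, Sum.elim_inl, Sum.elim_inr]
        rw [← finsum_add_distrib g1 g2]
        have e3 : ∑ᶠ x, min (A x) (A (u +ᵥ x)) = ∑ᶠ x, min (P x) (P (u +ᵥ x)) := by
          rw [← finsum_shift (fun x => min (P x) (P (u +ᵥ x))) w]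
          simp only [A, vadd_comm u w]
        have e4 : ∑ᶠ x, min (B x) (B (u +ᵥ x)) = ∑ᶠ x, min (P x) (P (u +ᵥ x)) := by
          rw [← finsum_shift (fun x => min (P x) (P (u +ᵥ x))) (-w)]
          simp only [B, vadd_comm u (-w)]
        have hle : ∑ᶠ x, (min (A x) (A (u +ᵥ x)) + min (B x) (B (u +ᵥ x))) * 2⁻¹ ≤
            ∑ᶠ x, (min (max (A x) (B x) / 2) (max (A (u +ᵥ x)) (B (u +ᵥ x)) / 2) +
              min (min (A x) (B x) / 2) (min (A (u +ᵥ x)) (B (u +ᵥ x)) / 2)) := by
          refine finsum_le_finsum' ((g3.add g4).mul_left _) (g1.add g2) fun x => ?_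
          have := min_sort (A x) (B x) (A (u +ᵥ x)) (B (u +ᵥ x))
          simp only [min_div_div_right (show (0 : ℝ) ≤ 2 by norm_num)]
          linarith
        rw [← finsum_mul, finsum_add_distrib g3 g4, e3, e4] at hle
        have := hov i.castSucc
        linarith)
      (convex_liftSet hK _)
      (by
        rintro (x | x) hx
        · by_cases hA : A x = 0
          · have hB : B x ≠ 0 := by
              intro hB; apply hx; simp [P', hA, hB]
            have := hs _ hB
            rw [hφ, map_neg] at this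
            refine ⟨-1, by simp [φ'], ?_, ?_⟩ <;> simpa [φ', add_comm] using this
          · have := hs _ hA
            rw [hφ] at this
            refine ⟨1, by simp [φ'], ?_, ?_⟩ <;> simpa [φ', add_comm] using this
        · have hA : A x ≠ 0 := by
            intro hA; apply hx
            simp [P', hA, min_eq_left (show (0 : ℝ) ≤ B x from h0 _)]
          have hB : B x ≠ 0 := by
            intro hB; apply hx
            simp [P', hB, min_eq_right (show (0 : ℝ) ≤ A x from h0 _)]
          have h2 := hs _ hA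
          have h3 := hs _ hB
          rw [hφ] at h2 h3
          rw [map_neg] at h3
          refine ⟨0, by simp [φ'], ?_, ?_⟩
          · simpa [φ', add_comm] using h2
          · simpa [φ', add_comm] using h3)
    set β : ℝ := ∑ᶠ x, min (A x) (B x) / 2 with hβ
    have hβ3 : 1 / 3 ≤ β := by
      have e : ∑ᶠ x, min (A x) (B x) = ∑ᶠ x, min (P x) (P ((6 • v (Fin.last n)) +ᵥ x)) := by
        rw [← finsum_shift (fun x => min (P x) (P ((6 • v (Fin.last n)) +ᵥ x))) (-w)]
        refine finsum_congr fun x => ?_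
        rw [min_comm, vadd_vadd, show 6 • v (Fin.last n) + -w = w by rw [hw]; abel]
      have := hov (Fin.last n)
      rw [hβ]; simp only [div_eq_mul_inv]; rw [← finsum_mul, e]; linarith
    have hmean : ∑ᶠ z, P' z • φ' z = (∑ᶠ x, P x • φ x, β) := by
      have k1 : HasFiniteSupport fun x => P' (Sum.inl x) • φ' (Sum.inl x) := f1.smul_left _
      have k2 : HasFiniteSupport fun x => P' (Sum.inr x) • φ' (Sum.inr x) := f2.smul_left _
      have k3 : HasFiniteSupport fun x => P' (Sum.inl x) • φ' (Sum.inl x) +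
          P' (Sum.inr x) • φ' (Sum.inr x) := k1.add k2
      rw [finsum_sumType _ k1 k2, ← finsum_add_distrib k1 k2]
      refine Prod.ext ?_ ?_
      · rw [← AddMonoidHom.coe_fst, AddMonoidHom.map_finsum _ k3]
        simp only [P', φ', Sum.elim_inl, Sum.elim_inr, AddMonoidHom.coe_fst, Prod.fst_add,
          Prod.smul_fst, ← add_smul, hmm]
        have mS : ∀ g : G, ∑ᶠ x, P (g +ᵥ x) • φ x = ∑ᶠ x, P x • φ x - ψ g := by
          intro g
          have fg := fs_shift hf g
          have q1 : HasFiniteSupport fun x => P (g +ᵥ x) • ψ g := fg.smul_left _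
          have q2 : HasFiniteSupport fun x => P (g +ᵥ x) • φ x := fg.smul_left _
          rw [← finsum_shift (fun x => P x • φ x) g]
          simp only [hφ, smul_add]
          rw [finsum_add_distrib q1 q2, ← finsum_smul' fg, finsum_shift P g, h1]
          simp
        have : ∀ x, ((A x + B x) * 2⁻¹) • φ x = (2⁻¹ : ℝ) • (A x • φ x + B x • φ x) := by
          intro x; module
        simp only [this]
        have q1 : HasFiniteSupport fun x => A x • φ x := fA.smul_left _
        have q2 : HasFiniteSupport fun x => B x • φ x := fB.smul_left _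
        have k4 : HasFiniteSupport fun x => A x • φ x + B x • φ x := q1.add q2
        rw [← smul_finsum' _ k4, finsum_add_distrib q1 q2, mS w, mS (-w), map_neg]
        module
      · rw [← AddMonoidHom.coe_snd, AddMonoidHom.map_finsum _ k3]
        simp [P', φ', hβ]
    have hsum : ∑ i, ε i • ψ' (v i.castSucc) = (∑ i, ε i • ψ (v i.castSucc), (0 : ℝ)) := by
      refine Prod.ext ?_ ?_
      · simp [Prod.fst_sum, ψ']
      · simp [Prod.snd_sum, ψ']
    rw [hmean, hsum, Prod.mk_add_mk, add_zero, hψw] at hmem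
    obtain ⟨e, he, hK'⟩ := liftSet_sign hK hβ3 hmem
    refine ⟨Fin.snoc ε e, ?_, ?_⟩
    · intro i
      refine Fin.lastCases ?_ (fun j => ?_) i
      · simpa using he
      · simpa using hε j
    · rw [Fin.sum_univ_castSucc]
      simpa [add_assoc] using hK'

end Vale.Agent.P262
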