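import Vale.Agent.P262.KL

/-! The Komlós bound with an absolute constant, from the sign-choosing lemma. -/

namespace Vale.Agent.P262
open Function Finset

lemma finsum_pi_prod {κ : Type} [Fintype κ] (h : κ → ℤ → ℝ) (I : Finset ℤ)
    (hI : ∀ a t, h a t ≠ 0 → t ∈ I) :
    (HasFiniteSupport fun x : κ → ℤ => ∏ a, h a (x a)) ∧
      ∑ᶠ x : κ → ℤ, ∏ a, h a (x a) = ∏ a, ∑ᶠ t, h a t := by
  classical
  have hs : (support fun x : κ → ℤ => ∏ a, h a (x a)) ⊆
      ((Fintype.piFinset fun _ : κ => I : Finset (κ → ℤ)) : Set (κ → ℤ)) := by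
    intro x hx
    simp only [mem_coe, Fintype.mem_piFinset]
    exact fun a => hI a _ (prod_ne_zero_iff.1 hx a (mem_univ a))
  refine ⟨(Finset.finite_toSet _).subset hs, ?_⟩
  rw [finsum_eq_sum_of_support_subset _ hs, ← prod_univ_sum]
  exact prod_congr rfl fun a _ =>
    (finsum_eq_sum_of_support_subset _ (fun t ht => hI a t ht)).symm

lemma one_sub_sum_le_prod' {κ : Type} (s : Finset κ) (x δ : κ → ℝ) (hx : ∀ a, 0 ≤ x a)
    (hδ : ∀ a, 0 ≤ δ a) (h : ∀ a, 1 - δ a ≤ x a) : 1 - ∑ a ∈ s, δ a ≤ ∏ a ∈ s, x a := by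
  classical
  induction s using Finset.induction_on with
  | empty => simp
  | insert a s ha ih =>
    rw [sum_insert ha, prod_insert ha]
    have h1 : 0 ≤ ∏ a ∈ s, x a := prod_nonneg fun a _ => hx a
    have h2 : 0 ≤ ∑ a ∈ s, δ a := sum_nonneg fun a _ => hδ a
    have h3 := mul_le_mul_of_nonneg_right (h a) h1
    by_cases h4 : δ a ≤ 1
    · have := mul_le_mul_of_nonneg_left ih (sub_nonneg.2 h4)
      nlinarith [mul_nonneg (hδ a) h2]
    · nlinarith [mul_nonneg (hx a) h1]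

/-- The tent function of half-width `2 H`. -/
noncomputable def tent (H : ℕ) (t : ℤ) : ℝ := max (2 * (H : ℝ) - |(t : ℝ)|) 0

lemma tent_nonneg (H : ℕ) (t : ℤ) : 0 ≤ tent H t := le_max_right _ _

lemma tent_abs {H : ℕ} {t : ℤ} (h : tent H t ≠ 0) : |(t : ℝ)| ≤ 2 * H := by
  by_contra hc
  exact h (max_eq_right (by linarith))

lemma tent_mem {H : ℕ} {t : ℤ} (h : tent H t ≠ 0) : t ∈ Icc (-(2 * H : ℤ)) (2 * H) := by
  have := tent_abs h
  rw [mem_Icc, ← abs_le]
  exact_mod_cast this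

lemma tent_fs (H : ℕ) : HasFiniteSupport (tent H) :=
  (Finset.finite_toSet _).subset fun _ ht => tent_mem ht

lemma tent_lip (H : ℕ) (s t : ℤ) : |tent H t - tent H (s + t)| ≤ |(s : ℝ)| := by
  refine (abs_max_sub_max_le_abs _ _ _).trans ?_
  have := abs_abs_sub_abs_le_abs_sub ((s : ℝ) + t) t
  simp only [add_sub_cancel_right] at this
  push_cast
  rwa [show 2 * (H : ℝ) - |(t : ℝ)| - (2 * H - |(s : ℝ) + t|) = |(s : ℝ) + t| - |(t : ℝ)| by ring]

lemma tent_Z (H : ℕ) : 2 * (H : ℝ) ^ 3 ≤ ∑ᶠ t, tent H t * tent H t := by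
  rw [finsum_eq_sum_of_support_subset _ (s := Icc (-(2 * H : ℤ)) (2 * H))
    (fun t ht => tent_mem (left_ne_zero_of_mul ht))]
  have h1 : ∑ t ∈ Icc (-(H : ℤ)) H, (H : ℝ) ^ 2 ≤ ∑ t ∈ Icc (-(H : ℤ)) H, tent H t * tent H t := by
    refine sum_le_sum fun t ht => ?_
    rw [mem_Icc, ← abs_le] at ht
    have h2 : |(t : ℝ)| ≤ H := by exact_mod_cast ht
    have h3 : (H : ℝ) ≤ tent H t := le_max_of_le_left (by linarith)
    have h4 : (0 : ℝ) ≤ H := Nat.cast_nonneg H
    nlinarith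
  have h2 : ∑ t ∈ Icc (-(H : ℤ)) H, tent H t * tent H t ≤
      ∑ t ∈ Icc (-(2 * H : ℤ)) (2 * H), tent H t * tent H t :=
    sum_le_sum_of_subset_of_nonneg (Icc_subset_Icc (by omega) (by omega))
      fun t _ _ => mul_self_nonneg _
  rw [sum_const, Int.card_Icc, show ((H : ℤ) + 1 - -(H : ℤ)).toNat = 2 * H + 1 by omega,
    nsmul_eq_mul] at h1
  push_cast at h1
  nlinarith [sq_nonneg (H : ℝ)]

lemma tent_BC (H : ℕ) (s : ℤ) :
    ∑ᶠ t, tent H t * tent H t - (4 * H + 1) * (s : ℝ) ^ 2 ≤ ∑ᶠ t, tent H t * tent H (s + t) := by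
  classical
  set I : Finset ℤ := Icc (-(2 * H : ℤ)) (2 * H) with hI
  let χ : ℤ → ℝ := fun t => if t ∈ I then 1 else 0
  have fχ : HasFiniteSupport χ := (Finset.finite_toSet I).subset fun t ht => by
    by_contra hc; exact ht (if_neg hc)
  have sχ : ∑ᶠ t, χ t = 4 * H + 1 := by
    rw [finsum_eq_sum_of_support_subset χ (s := I) (fun t ht => by
      by_contra hc; exact ht (if_neg hc))]
    rw [sum_congr rfl fun t ht => if_pos ht, sum_const, hI, Int.card_Icc,
      show ((2 * H : ℤ) + 1 - -(2 * H : ℤ)).toNat = 4 * H + 1 by omega]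
    simp
  have f1 : HasFiniteSupport fun t => tent H t * tent H t := (tent_fs H).mul_left _
  have f2 : HasFiniteSupport fun t => tent H (s + t) * tent H (s + t) := fs_shift f1 s
  have f3 : HasFiniteSupport fun t => χ (s + t) := fs_shift fχ s
  have f4 : HasFiniteSupport fun t => tent H t * tent H (s + t) := (tent_fs H).mul_left _
  have f5 : HasFiniteSupport fun t => tent H t * tent H t + tent H (s + t) * tent H (s + t) :=
    f1.add f2
  have f6 : HasFiniteSupport fun t => χ t + χ (s + t) := fχ.add f3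
  have f7 : HasFiniteSupport fun t => (χ t + χ (s + t)) * (s : ℝ) ^ 2 := f6.mul_left _
  have f8 : HasFiniteSupport fun t => tent H t * tent H (s + t) * 2 := f4.mul_left _
  have key : ∑ᶠ t, (tent H t * tent H t + tent H (s + t) * tent H (s + t)) ≤
      ∑ᶠ t, (tent H t * tent H (s + t) * 2 + (χ t + χ (s + t)) * (s : ℝ) ^ 2) := by
    refine finsum_le_finsum' f5 (f8.add f7) fun t => ?_
    have h1 : (tent H t - tent H (s + t)) ^ 2 ≤ (s : ℝ) ^ 2 := sq_le_sq.2 (tent_lip H s t)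
    have c0 : ∀ t, 0 ≤ χ t := fun t => by simp only [χ]; split_ifs <;> norm_num
    by_cases ha : tent H t = 0
    · by_cases hb : tent H (s + t) = 0
      · simp only [ha, hb]
        have := mul_nonneg (add_nonneg (c0 t) (c0 (s + t))) (sq_nonneg (s : ℝ))
        linarith
      · have : χ (s + t) = 1 := if_pos (tent_mem hb)
        have := mul_nonneg (c0 t) (sq_nonneg (s : ℝ))
        simp only
        nlinarith
    · have : χ t = 1 := if_pos (tent_mem ha)
      have := mul_nonneg (c0 (s + t)) (sq_nonneg (s : ℝ))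
      simp only
      nlinarith
  have e1 : ∑ᶠ t, tent H (s + t) * tent H (s + t) = ∑ᶠ t, tent H t * tent H t :=
    finsum_shift (fun t => tent H t * tent H t) s
  have e2 : ∑ᶠ t, χ (s + t) = ∑ᶠ t, χ t := finsum_shift χ s
  rw [finsum_add_distrib f1 f2, finsum_add_distrib f8 f7, ← finsum_mul, ← finsum_mul,
    finsum_add_distrib fχ f3, e1, e2, sχ] at key
  linarith

/-- Integer form of the Komlós bound. -/
lemma komlos_int {κ : Type} [Fintype κ] (n M : ℕ) (hM : 1 ≤ M) (v : Fin n → κ → ℤ)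
    (hv : ∀ i, ∑ a, (v i a : ℝ) ^ 2 ≤ (M : ℝ) ^ 2) :
    ∃ ε : Fin n → ℝ, (∀ i, ε i = 1 ∨ ε i = -1) ∧ ∀ a, |∑ i, ε i * (v i a : ℝ)| ≤ 180 * M := by
  classical
  set H : ℕ := 45 * M with hH
  set Z : ℝ := ∑ᶠ t, tent H t * tent H t with hZ
  have hM' : (1 : ℝ) ≤ M := by exact_mod_cast hM
  have hH' : (H : ℝ) = 45 * M := by rw [hH]; push_cast; ring
  have hZ1 : 2 * (H : ℝ) ^ 3 ≤ Z := tent_Z H
  have hZ0 : 0 < Z := lt_of_lt_of_le (by rw [hH']; positivity) hZ1
  let F : (κ → ℤ) → (κ → ℤ) → ℝ := fun s x => ∏ a, (tent H (x a) * tent H (s a + x a) * Z⁻¹)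
  have hF := fun s : κ → ℤ => finsum_pi_prod (fun a t => tent H t * tent H (s a + t) * Z⁻¹)
    (Icc (-(2 * H : ℤ)) (2 * H))
    (fun a t ht => tent_mem (left_ne_zero_of_mul (left_ne_zero_of_mul ht)))
  let g : (κ → ℤ) → ℝ := fun x => ∏ a, (tent H (x a) * (√Z)⁻¹)
  have hFg : ∀ s x, F s x = g x * g (s + x) := by
    intro s x
    simp only [F, g, ← prod_mul_distrib]
    refine prod_congr rfl fun a _ => ?_
    rw [Pi.add_apply]
    have : Z⁻¹ = (√Z)⁻¹ * (√Z)⁻¹ := by rw [← mul_inv, Real.mul_self_sqrt hZ0.le]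
    rw [this]; ring
  let P : (κ → ℤ) → ℝ := fun x => F 0 x
  have hP : ∀ x, P x = g x * g x := fun x => by simp [P, hFg]
  have fP : HasFiniteSupport P := (hF 0).1
  have sP : ∑ᶠ x, P x = 1 := by
    simp only [P, F]
    rw [(hF 0).2]
    refine prod_eq_one fun a _ => ?_
    rw [← finsum_mul]
    simp only [Pi.zero_apply, zero_add]
    exact mul_inv_cancel₀ hZ0.ne'
  let ψ : (κ → ℤ) →+ (κ → ℝ) := AddMonoidHom.compLeft (Int.castAddHom ℝ) κ
  let K : Set (κ → ℝ) := {z | ∀ a, |z a| ≤ 2 * H}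
  have hK : Convex ℝ K := by
    intro x hx y hy p q hp hq hpq a
    have := abs_add_le (p * x a) (q * y a)
    rw [abs_mul, abs_mul, abs_of_nonneg hp, abs_of_nonneg hq] at this
    have h5 := mul_le_mul_of_nonneg_left (hx a) hp
    have h6 := mul_le_mul_of_nonneg_left (hy a) hq
    simp only [Pi.add_apply, Pi.smul_apply, smul_eq_mul]
    nlinarith
  have P0 : ∀ x, 0 ≤ P x := fun x => by rw [hP]; exact mul_self_nonneg _
  have hs : ∀ x, P x ≠ 0 → ψ x ∈ K := fun x hx a =>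
    tent_abs (left_ne_zero_of_mul (left_ne_zero_of_mul (prod_ne_zero_iff.1 hx a (mem_univ a))))
  obtain ⟨ε, hε, hmem⟩ := KL n (κ → ℤ) (κ → ℝ) ψ ψ P v K (fun g x => map_add ψ g x) fP P0 sP
    (by
      intro i
      set s : κ → ℤ := 6 • v i with hs
      have fs : HasFiniteSupport fun x => P (s +ᵥ x) := fs_shift fP s
      have fF : HasFiniteSupport fun x => F s x * 3 := (hF s).1.mul_left _
      have fm : HasFiniteSupport fun x => min (P x) (P (s +ᵥ x)) := fP.min fs
      have fa : HasFiniteSupport fun x => P x + P (s +ᵥ x) := fP.add fs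
      have fb : HasFiniteSupport fun x => (P x + P (s +ᵥ x)) * (13 / 12) := fa.mul_left _
      have key : ∑ᶠ x, F s x * 3 ≤
          ∑ᶠ x, (min (P x) (P (s +ᵥ x)) + (P x + P (s +ᵥ x)) * (13 / 12)) := by
        refine finsum_le_finsum' fF (fm.add fb) fun x => ?_
        simp only [hP, hFg, vadd_eq_add]
        rcases le_total (g x * g x) (g (s + x) * g (s + x)) with h | h
        · rw [min_eq_left h]; nlinarith [sq_nonneg (g x * 18 - g (s + x) * 13)]
        · rw [min_eq_right h]; nlinarith [sq_nonneg (g x * 13 - g (s + x) * 18)]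
      rw [finsum_add_distrib fm fb, ← finsum_mul, ← finsum_mul, finsum_add_distrib fP fs,
        finsum_shift P s, sP] at key
      have hBC : 1 - ∑ a, (4 * H + 1) * (s a : ℝ) ^ 2 * Z⁻¹ ≤ ∑ᶠ x, F s x := by
        simp only [F]
        rw [(hF s).2]
        refine one_sub_sum_le_prod' _ _ _ (fun a => ?_) (fun a => by positivity) fun a => ?_
        · exact finsum_nonneg fun t => mul_nonneg (mul_nonneg (tent_nonneg _ _) (tent_nonneg _ _))
            (by positivity)
        · rw [← finsum_mul]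
          have := mul_le_mul_of_nonneg_right (tent_BC H (s a)) (inv_nonneg.2 hZ0.le)
          rw [sub_mul, mul_inv_cancel₀ hZ0.ne'] at this
          exact this
      have hs2 : ∑ a, (4 * H + 1) * (s a : ℝ) ^ 2 * Z⁻¹ ≤ 1 / 18 := by
        have : ∑ a, (4 * H + 1) * (s a : ℝ) ^ 2 * Z⁻¹ =
            (4 * H + 1) * 36 * (∑ a, (v i a : ℝ) ^ 2) * Z⁻¹ := by
          rw [mul_sum, sum_mul]
          refine sum_congr rfl fun a _ => ?_
          have e6 : s a = 6 * v i a := by simp [hs]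
          rw [e6]
          push_cast; ring
        rw [this, mul_inv_le_iff₀ hZ0]
        have h1 := mul_le_mul_of_nonneg_left (hv i) (show 0 ≤ (4 * (H : ℝ) + 1) * 36 by positivity)
        rw [hH'] at h1 hZ1 ⊢
        have h2 : (M : ℝ) ^ 2 ≤ M ^ 3 := by nlinarith
        nlinarith
      linarith) hK hs
  refine ⟨ε, hε, fun a => ?_⟩
  have h1 := hK.finsum_mem P0 sP hs a
  have h2 := hmem a
  rw [Pi.add_apply, Finset.sum_apply] at h2
  have h3 := abs_sub _ _ |>.trans (add_le_add h2 h1)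
  simp only [add_sub_cancel_left] at h3
  rw [hH'] at h3
  have e : ∑ i, (ε i • ψ (v i)) a = ∑ i, ε i * (v i a : ℝ) := rfl
  rw [e] at h3
  linarith

/-- The Komlós bound. -/
theorem komlos {ι κ : Type} [Fintype ι] [Fintype κ] (u : ι → κ → ℝ)
    (hu : ∀ i, ∑ a, u i a ^ 2 ≤ 1) :
    ∃ ε : ι → ℝ, (∀ i, ε i = 1 ∨ ε i = -1) ∧ ∀ a, |∑ i, ε i * u i a| ≤ 181 := by
  classical
  set n := Fintype.card ι
  let e : Fin n ≃ ι := (Fintype.equivFin ι).symm
  set M : ℕ := n + 1 with hM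
  have tr : ∀ x : ℝ, ∃ k : ℤ, (k : ℝ) ^ 2 ≤ x ^ 2 ∧ |x - k| ≤ 1 := by
    intro x
    rcases le_total 0 x with h | h
    · refine ⟨⌊x⌋, ?_, ?_⟩
      · have h1 : (0 : ℝ) ≤ ⌊x⌋ := by exact_mod_cast Int.floor_nonneg.2 h
        have := Int.floor_le x
        nlinarith
      · have := Int.floor_le x
        have := Int.lt_floor_add_one x
        rw [abs_le]; constructor <;> linarith
    · refine ⟨⌈x⌉, ?_, ?_⟩
      · have h1 : (⌈x⌉ : ℝ) ≤ 0 := by exact_mod_cast Int.ceil_nonpos.2 h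
        have := Int.le_ceil x
        nlinarith
      · have := Int.le_ceil x
        have := Int.ceil_lt_add_one x
        rw [abs_le]; constructor <;> linarith
  choose k hk1 hk2 using tr
  obtain ⟨ε, hε, hb⟩ := komlos_int n M (by omega) (fun i a => k (M * u (e i) a)) (by
    intro i
    calc ∑ a, (k (M * u (e i) a) : ℝ) ^ 2 ≤ ∑ a, (M * u (e i) a) ^ 2 := sum_le_sum fun a _ => hk1 _
      _ = (M : ℝ) ^ 2 * ∑ a, u (e i) a ^ 2 := by rw [mul_sum]; simp only [mul_pow]
      _ ≤ _ := mul_le_of_le_one_right (by positivity) (hu _))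
  refine ⟨fun i => ε (e.symm i), fun i => hε _, fun a => ?_⟩
  rw [← Equiv.sum_comp e]
  simp only [Equiv.symm_apply_apply]
  have hM0 : (0 : ℝ) < M := by positivity
  have h1 : |∑ i, ε i * (M * u (e i) a - k (M * u (e i) a))| ≤ n := by
    refine (abs_sum_le_sum_abs _ _).trans ?_
    refine (sum_le_sum (g := fun _ => (1 : ℝ)) fun i _ => ?_).trans (by simp)
    rw [abs_mul]
    have : |ε i| = 1 := by rcases hε i with h | h <;> simp [h]
    rw [this, one_mul]; exact hk2 _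
  have h2 : (M : ℝ) * ∑ i, ε i * u (e i) a = ∑ i, ε i * (M * u (e i) a - k (M * u (e i) a)) +
      ∑ i, ε i * (k (M * u (e i) a) : ℝ) := by
    rw [mul_sum, ← sum_add_distrib]
    exact sum_congr rfl fun i _ => by ring
  have h3 := (abs_add_le _ _).trans (add_le_add h1 (hb a))
  rw [← h2, abs_mul, abs_of_pos hM0] at h3
  have h4 : (n : ℝ) ≤ M := by rw [hM]; push_cast; linarith
  nlinarith [abs_nonneg (∑ i, ε i * u (e i) a)]

end Vale.Agent.P262
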