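import Vale.Agent.P262.Ctl

/-! Levels: weights attached to the coordinates at each stage of the refinement. -/

set_option linter.unusedSectionVars false

namespace Vale.Agent.P262
open Finset Matrix

/-- Data of one level. -/
structure Lv (Θ : Type) where
  act : Finset Θ
  T : Θ → ℝ
  G : Θ → ℝ
  Γ : Θ → ℝ
  β : ℝ
  a : ℝ

variable {Θ ι : Type} [Fintype Θ] [DecidableEq Θ] [Fintype ι] [DecidableEq ι]

namespace Lv

noncomputable def ga (l : Lv Θ) (θ : Θ) : ℝ := if θ ∈ l.act then l.G θ else 0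
noncomputable def gt (l : Lv Θ) (θ : Θ) : ℝ := if θ ∈ l.act then 0 else l.G θ
noncomputable def wN (l : Lv Θ) (q : Θ × Θ) : ℝ :=
  if q.1 ∈ l.act ∧ q.2 ∈ l.act then 1 / (l.T q.1 * (10 ^ 18 * l.G q.2)) else 0
noncomputable def dT (l : Lv Θ) (q : Θ × Θ) : ℝ := if q.1 = q.2 then l.T q.1 else 0
noncomputable def b (l : Lv Θ) : ℝ := ∑ θ ∈ l.act, 1 / l.G θ
noncomputable def r (l : Lv Θ) : ℝ := √l.β

structure OK (l : Lv Θ) : Prop where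
  G1 : ∀ θ, 1 ≤ l.G θ
  hT : ∀ θ ∈ l.act, 10 ^ 18 * l.G θ ^ 3 ≤ l.T θ
  mono : ∀ θ ∈ l.act, ∀ θ' ∈ l.act, l.G θ ≤ l.G θ' ∨ l.T θ' ≤ l.T θ
  b2 : l.b ≤ 2 * l.β
  βpos : 0 < l.β

structure Next (l m : Lv Θ) : Prop where
  hT : ∀ θ, l.T θ = 2 * m.T θ
  sub : m.act ⊆ l.act
  Ga : ∀ θ ∈ m.act, l.G θ = 5 / 4 * m.G θ
  cross : ∀ θ ∈ l.act, θ ∉ m.act → l.T θ ≤ 2 * 10 ^ 18 ∧ l.G θ = 1 ∧ m.G θ = 1
  thin : ∀ θ, θ ∉ l.act → m.G θ = 5 / 4 * l.G θ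
  hβ : m.β = 9 / 10 * l.β + l.b
  ha : m.a = l.a + 10 ^ 30 * m.β
  hΓ : ∀ θ, m.Γ θ = l.Γ θ + 1 / m.G θ

noncomputable def next (l : Lv Θ) : Lv Θ where
  act := l.act.filter fun θ => 2 * 10 ^ 18 ≤ l.T θ
  T θ := l.T θ / 2
  G θ := if θ ∈ l.act then (if 2 * 10 ^ 18 ≤ l.T θ then 4 / 5 * l.G θ else 1) else 5 / 4 * l.G θ
  Γ θ := l.Γ θ + 1 / (if θ ∈ l.act then (if 2 * 10 ^ 18 ≤ l.T θ then 4 / 5 * l.G θ else 1)
    else 5 / 4 * l.G θ)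
  β := 9 / 10 * l.β + l.b
  a := l.a + 10 ^ 30 * (9 / 10 * l.β + l.b)

structure Good (d : ℝ) (l : Lv Θ) : Prop where
  G1 : ∀ θ, 1 ≤ l.G θ
  pw : ∀ θ ∈ l.act, ∃ k : ℕ, l.G θ = (5 / 4) ^ k ∧ 10 ^ 18 * 2 ^ k ≤ l.T θ ∧
    l.T θ < 10 ^ 18 * 2 ^ (k + 1)
  b2 : l.b ≤ 2 * l.β
  βpos : 0 < l.β
  hΓ : ∀ θ, l.Γ θ ≤ if θ ∈ l.act then 5 / l.G θ else 10 - 4 / l.G θ
  ha : l.a + 10 ^ 30 * (9 * l.β + 10 * ∑ θ ∈ l.act, (5 - 4 / l.G θ)) ≤ 10 ^ 30 * (59 * d)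

variable {l m : Lv Θ} {d : ℝ}

lemma Good.ok (h : l.Good d) : l.OK where
  G1 := h.G1
  hT θ hθ := by
    obtain ⟨k, h1, h2, -⟩ := h.pw θ hθ
    rw [h1, ← pow_mul, mul_comm k 3, pow_mul]
    have : ((5 / 4 : ℝ) ^ 3) ^ k ≤ 2 ^ k := pow_le_pow_left₀ (by norm_num) (by norm_num) k
    linarith
  mono θ hθ θ' hθ' := by
    obtain ⟨k, h1, h2, -⟩ := h.pw θ hθ
    obtain ⟨k', h1', -, h3⟩ := h.pw θ' hθ'
    rcases le_or_gt k k' with hk | hk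
    · left; rw [h1, h1']; exact pow_le_pow_right₀ (by norm_num) hk
    · right
      have : (2 : ℝ) ^ (k' + 1) ≤ 2 ^ k := pow_le_pow_right₀ (by norm_num) hk
      linarith
  b2 := h.b2
  βpos := h.βpos

lemma Good.one (h : l.Good d) {θ : Θ} (hθ : θ ∈ l.act) (h2 : ¬ 2 * 10 ^ 18 ≤ l.T θ) :
    l.G θ = 1 := by
  obtain ⟨k, h1, h3, -⟩ := h.pw θ hθ
  rcases k with _ | k
  · simpa using h1
  · exfalso
    have : (1 : ℝ) ≤ 2 ^ k := one_le_pow₀ (by norm_num)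
    rw [pow_succ 2] at h3
    linarith

lemma Good.nx (h : l.Good d) : l.Next l.next where
  hT θ := by simp only [next]; ring
  sub := filter_subset _ _
  Ga θ hθ := by
    obtain ⟨h1, h2⟩ := mem_filter.1 hθ
    simp only [next, if_pos h1, if_pos h2]; ring
  cross θ hθ hn := by
    have h2 : ¬ 2 * 10 ^ 18 ≤ l.T θ := fun h2 => hn (mem_filter.2 ⟨hθ, h2⟩)
    exact ⟨by linarith, h.one hθ h2, by simp only [next, if_pos hθ, if_neg h2]⟩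
  thin θ hθ := by simp only [next, if_neg hθ]
  hβ := rfl
  ha := rfl
  hΓ θ := rfl

lemma OK.b_nonneg (h : l.OK) : 0 ≤ l.b :=
  sum_nonneg fun θ _ => div_nonneg zero_le_one (zero_le_one.trans (h.G1 θ))

lemma Good.next_good (h : l.Good d) : l.next.Good d := by
  have hn := h.nx
  have hb := h.ok.b_nonneg
  have pw : ∀ θ ∈ l.next.act, ∃ k : ℕ, l.next.G θ = (5 / 4) ^ k ∧ 10 ^ 18 * 2 ^ k ≤ l.next.T θ ∧
      l.next.T θ < 10 ^ 18 * 2 ^ (k + 1) := by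
    intro θ hθ
    obtain ⟨h1, h2⟩ := mem_filter.1 hθ
    obtain ⟨k, e1, e2, e3⟩ := h.pw θ h1
    have e4 := hn.Ga θ hθ
    have e5 := hn.hT θ
    rcases k with _ | k
    · exfalso; norm_num at e3 h2; linarith
    · refine ⟨k, ?_, ?_, ?_⟩
      · rw [pow_succ] at e1; linarith
      · rw [pow_succ 2] at e2; linarith
      · rw [pow_succ 2] at e3; linarith
  have G1 : ∀ θ, 1 ≤ l.next.G θ := by
    intro θ
    by_cases h1 : θ ∈ l.next.act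
    · obtain ⟨k, e, -⟩ := pw θ h1
      rw [e]; exact one_le_pow₀ (by norm_num)
    · by_cases h2 : θ ∈ l.act
      · exact (hn.cross θ h2 h1).2.2.ge
      · rw [hn.thin θ h2]; linarith [h.G1 θ]
  have inv : ∀ θ ∈ l.next.act, 1 / l.next.G θ = 5 / 4 * (1 / l.G θ) := by
    intro θ hθ
    have := G1 θ
    rw [hn.Ga θ hθ]; field_simp
  have hsum : ∑ θ ∈ l.next.act, (5 - 4 / l.next.G θ) + l.b = ∑ θ ∈ l.act, (5 - 4 / l.G θ) := by
    rw [b, ← sum_sdiff hn.sub, ← sum_sdiff hn.sub (f := fun θ => 5 - 4 / l.G θ), add_left_comm,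
      ← sum_add_distrib]
    refine congrArg₂ _ (sum_congr rfl fun θ hθ => ?_) (sum_congr rfl fun θ hθ => ?_)
    · rw [(hn.cross θ (mem_sdiff.1 hθ).1 (mem_sdiff.1 hθ).2).2.1]; norm_num
    · have := inv θ hθ
      rw [div_eq_mul_one_div 4, div_eq_mul_one_div 4 (l.G θ), this]; ring
  refine ⟨G1, pw, ?_, ?_, fun θ => ?_, ?_⟩
  · have : l.next.b ≤ 5 / 4 * l.b := by
      rw [b, sum_congr rfl inv, ← mul_sum]
      exact mul_le_mul_of_nonneg_left (sum_le_sum_of_subset_of_nonneg hn.sub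
        fun θ _ _ => div_nonneg zero_le_one (zero_le_one.trans (h.G1 θ))) (by norm_num)
    rw [hn.hβ]; linarith [h.βpos]
  · rw [hn.hβ]; linarith [h.βpos]
  · have e := h.hΓ θ
    rw [hn.hΓ]
    by_cases h1 : θ ∈ l.next.act
    · rw [if_pos (hn.sub h1), div_eq_mul_one_div 5] at e
      rw [if_pos h1, div_eq_mul_one_div 5, inv θ h1]; linarith
    · rw [if_neg h1]
      by_cases h2 : θ ∈ l.act
      · rw [if_pos h2, (hn.cross θ h2 h1).2.1] at e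
        rw [(hn.cross θ h2 h1).2.2]; linarith
      · rw [if_neg h2] at e
        have := h.G1 θ
        have e2 : 1 / (5 / 4 * l.G θ) = 4 / 5 * (1 / l.G θ) := by field_simp
        rw [hn.thin θ h2, div_eq_mul_one_div 4, e2]
        rw [div_eq_mul_one_div 4] at e
        linarith
  · have := h.ha
    rw [hn.ha, hn.hβ]; linarith

lemma Good.a_le (h : l.Good d) : l.a ≤ 10 ^ 30 * (59 * d) := by
  have h1 : 0 ≤ ∑ θ ∈ l.act, (5 - 4 / l.G θ) := sum_nonneg fun θ _ => by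
    have := div_le_self (show (0 : ℝ) ≤ 4 by norm_num) (h.G1 θ); linarith
  linarith [h.ha, h.βpos]

lemma Good.Γ_le (h : l.Good d) (θ : Θ) : l.Γ θ ≤ 10 := by
  have := h.hΓ θ
  have h1 := h.G1 θ
  have h2 := div_le_self (show (0 : ℝ) ≤ 5 by norm_num) h1
  have h3 : 0 ≤ 4 / l.G θ := by positivity
  split_ifs at this <;> linarith

lemma exists_init (lam : Θ → ℝ) (hd : 0 < Fintype.card Θ) :
    ∃ l : Lv Θ, l.Good (Fintype.card Θ) ∧ l.T = lam ∧ l.β = Fintype.card Θ ∧ l.a = 0 ∧ l.Γ = 0 ∧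
      ∀ θ, θ ∉ l.act → l.G θ = 1 ∧ lam θ ≤ 10 ^ 18 := by
  have : ∀ θ, ∃ k : ℕ, (10 ^ 18 ≤ lam θ → 10 ^ 18 * 2 ^ k ≤ lam θ ∧ lam θ < 10 ^ 18 * 2 ^ (k + 1))
      ∧ (¬ 10 ^ 18 ≤ lam θ → k = 0) := by
    intro θ
    by_cases h : 10 ^ 18 ≤ lam θ
    · obtain ⟨k, h1, h2⟩ := exists_nat_pow_near (x := lam θ / 10 ^ 18) (y := 2)
        (by rw [le_div_iff₀ (by norm_num)]; linarith) (by norm_num)
      rw [le_div_iff₀ (by norm_num)] at h1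
      rw [div_lt_iff₀ (by norm_num)] at h2
      exact ⟨k, fun _ => ⟨by linarith, by linarith⟩, fun h' => absurd h h'⟩
    · exact ⟨0, fun h' => absurd h' h, fun _ => rfl⟩
  choose k hk1 hk2 using this
  have G1 : ∀ θ, (1 : ℝ) ≤ (5 / 4) ^ k θ := fun θ => one_le_pow₀ (by norm_num)
  have hc : ∀ f : Θ → ℝ, ∀ c : ℝ, 0 ≤ c → (∀ θ, f θ ≤ c) →
      ∑ θ ∈ univ.filter (fun θ => 10 ^ 18 ≤ lam θ), f θ ≤ c * Fintype.card Θ := by
    intro f c h0 hf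
    refine (sum_le_card_nsmul _ _ c fun θ _ => hf θ).trans ?_
    rw [nsmul_eq_mul, mul_comm]
    exact mul_le_mul_of_nonneg_left (by exact_mod_cast card_le_univ _) h0
  have hd' : (0 : ℝ) < Fintype.card Θ := by exact_mod_cast hd
  refine ⟨⟨univ.filter fun θ => 10 ^ 18 ≤ lam θ, lam, fun θ => (5 / 4) ^ k θ, 0,
    Fintype.card Θ, 0⟩, ⟨G1, fun θ hθ => ⟨k θ, rfl, hk1 θ (mem_filter.1 hθ).2⟩, ?_, hd', ?_, ?_⟩,
    rfl, rfl, rfl, rfl, fun θ hθ => ?_⟩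
  · have := hc (fun θ => 1 / (5 / 4) ^ k θ) 1 zero_le_one fun θ => div_le_self zero_le_one (G1 θ)
    simp only [b]; linarith
  · intro θ
    have h2 := div_le_self (show (0 : ℝ) ≤ 4 by norm_num) (G1 θ)
    simp only [Pi.zero_apply]
    split_ifs
    · positivity
    · linarith
  · have := hc (fun θ => 5 - 4 / (5 / 4) ^ k θ) 5 (by norm_num) fun θ => sub_le_self _ (by positivity)
    simp only; linarith
  · have h1 : ¬ 10 ^ 18 ≤ lam θ := fun h => hθ (mem_filter.2 ⟨mem_univ _, h⟩)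
    exact ⟨by simp only [hk2 θ h1, pow_zero], by linarith⟩

lemma OK.Gpos (h : l.OK) (θ : Θ) : 0 < l.G θ := zero_lt_one.trans_le (h.G1 θ)

lemma OK.TL (h : l.OK) {θ : Θ} (hθ : θ ∈ l.act) : 10 ^ 18 ≤ l.T θ := by
  have := one_le_pow₀ (n := 3) (h.G1 θ)
  linarith [h.hT θ hθ]

lemma OK.ga0 (h : l.OK) (θ : Θ) : 0 ≤ l.ga θ := by
  unfold ga; split_ifs; exacts [(h.Gpos θ).le, le_rfl]

lemma OK.gt0 (h : l.OK) (θ : Θ) : 0 ≤ l.gt θ := by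
  unfold gt; split_ifs; exacts [le_rfl, (h.Gpos θ).le]

lemma OK.G0 (h : l.OK) (θ : Θ) : 0 ≤ l.G θ := (h.Gpos θ).le

lemma OK.wN0 (h : l.OK) (q : Θ × Θ) : 0 ≤ l.wN q := by
  unfold wN; split_ifs with hq
  · have := h.TL hq.1
    have := h.Gpos q.2
    have : 0 < l.T q.1 := by linarith
    positivity
  · exact le_rfl

lemma OK.r_sq (h : l.OK) : l.r ^ 2 = l.β := Real.sq_sqrt h.βpos.le

lemma r0 (l : Lv Θ) : 0 ≤ l.r := Real.sqrt_nonneg _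

lemma OK.wn_le (h : l.OK) {α : Type} [Fintype α] {w x : α → ℝ} (hw : ∀ a, 0 ≤ w a) {t : ℝ}
    (ht : 0 ≤ t) (hx : en w x ≤ t ^ 2 * l.β) : wn w x ≤ t * l.r :=
  P262.wn_le hw (mul_nonneg ht l.r0) (by rw [mul_pow, h.r_sq]; exact hx)

lemma OK.en_le (h : l.OK) {α : Type} [Fintype α] {w x : α → ℝ} (hw : ∀ a, 0 ≤ w a) {t : ℝ}
    (hx : wn w x ≤ t * l.r) : en w x ≤ t ^ 2 * l.β := by
  have := P262.en_le hw hx
  rwa [mul_pow, h.r_sq] at this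

lemma OK.wn_G (h : l.OK) (x : Θ → ℝ) : wn l.G x ≤ wn l.ga x + wn l.gt x := by
  refine P262.wn_le h.G0 (add_nonneg (wn_nonneg _ _) (wn_nonneg _ _)) ?_
  have : en l.G x = en l.ga x + en l.gt x := by
    simp only [en, ← sum_add_distrib, ga, gt]
    exact sum_congr rfl fun θ _ => by split_ifs <;> ring
  rw [this, add_sq, wn_sq h.ga0, wn_sq h.gt0]
  have := mul_nonneg (wn_nonneg l.ga x) (wn_nonneg l.gt x)
  linarith

lemma Next.wN_le (hn : l.Next m) (hl : l.OK) (hm : m.OK) (q : Θ × Θ) :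
    m.wN q ≤ 5 / 2 * l.wN q := by
  unfold wN
  by_cases hq : q.1 ∈ m.act ∧ q.2 ∈ m.act
  · rw [if_pos hq, if_pos ⟨hn.sub hq.1, hn.sub hq.2⟩, hn.hT, hn.Ga _ hq.2]
    have := hm.TL hq.1
    have := hm.Gpos q.2
    have : 0 < m.T q.1 := by linarith
    apply le_of_eq; field_simp; norm_num
  · rw [if_neg hq]
    exact mul_nonneg (by norm_num) (hl.wN0 q)

lemma Next.β_le (hn : l.Next m) (hl : l.OK) : 9 * l.β ≤ 10 * m.β := by
  rw [hn.hβ]; linarith [hl.b_nonneg]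

lemma Next.b_le (hn : l.Next m) (hl : l.OK) : l.b ≤ m.β := by
  rw [hn.hβ]; linarith [hl.βpos]

lemma Next.transfer (hn : l.Next m) (hl : l.OK) (hm : m.OK) {x : Θ × Θ → ℝ} {t : ℝ} (ht : 0 ≤ t)
    (hx : wn l.wN x ≤ t * l.r) : wn m.wN x ≤ 5 / 3 * t * m.r := by
  refine hm.wn_le hm.wN0 (by positivity) ?_
  have h1 := en_mono (hn.wN_le hl hm) x
  have h2 := hl.en_le hl.wN0 hx
  have h3 := mul_le_mul_of_nonneg_left (hn.β_le hl) (sq_nonneg t)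
  rw [mul_pow]
  linarith

lemma Next.dT_eq (hn : l.Next m) : l.dT = (2 : ℝ) • m.dT := by
  funext q
  simp only [dT, Pi.smul_apply, smul_eq_mul, hn.hT]
  split_ifs <;> simp

end Lv
end Vale.Agent.P262
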