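import Vale.Agent.P262.Round

/-! Weighted norms, diagonalisation and a ridge-type right inverse. -/

set_option linter.unusedSectionVars false

namespace Vale.Agent.P262
open Finset Matrix

section basics
variable {α β ι : Type} [Fintype α] [Fintype β] [Fintype ι]

/-- Squared Euclidean norm. -/
def nn (x : α → ℝ) : ℝ := ∑ a, x a ^ 2

/-- Weighted energy. -/
def en (w x : α → ℝ) : ℝ := ∑ a, w a * x a ^ 2

/-- Weighted norm. -/
noncomputable def wn (w x : α → ℝ) : ℝ :=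
  ‖(WithLp.toLp 2 fun a => √(w a) * x a : EuclideanSpace ℝ α)‖

/-- Total energy of the rows indexed by `B`. -/
def ms (w : α → ℝ) (u : Matrix ι α ℝ) (B : Finset ι) : ℝ := ∑ i ∈ B, en w (u i)

lemma nn_nonneg (x : α → ℝ) : 0 ≤ nn x := sum_nonneg fun _ _ => sq_nonneg _

lemma nn_eq_dot (x : α → ℝ) : nn x = x ⬝ᵥ x := by simp [nn, dotProduct, sq]

lemma en_nonneg {w : α → ℝ} (hw : ∀ a, 0 ≤ w a) (x : α → ℝ) : 0 ≤ en w x :=
  sum_nonneg fun a _ => mul_nonneg (hw a) (sq_nonneg _)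

omit [Fintype ι] in
lemma ms_nonneg {w : α → ℝ} (hw : ∀ a, 0 ≤ w a) (u : Matrix ι α ℝ) (B : Finset ι) :
    0 ≤ ms w u B := sum_nonneg fun _ _ => en_nonneg hw _

omit [Fintype ι] in
lemma ms_mono {w : α → ℝ} (hw : ∀ a, 0 ≤ w a) (u : Matrix ι α ℝ) {B C : Finset ι} (h : B ⊆ C) :
    ms w u B ≤ ms w u C := sum_le_sum_of_subset_of_nonneg h fun _ _ _ => en_nonneg hw _

lemma en_mono {w w' : α → ℝ} {r : ℝ} (h : ∀ a, w' a ≤ r * w a) (x : α → ℝ) :
    en w' x ≤ r * en w x := by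
  rw [en, en, mul_sum]
  exact sum_le_sum fun a _ => by
    have := mul_le_mul_of_nonneg_right (h a) (sq_nonneg (x a)); linarith

lemma wn_nonneg (w x : α → ℝ) : 0 ≤ wn w x := norm_nonneg _

lemma wn_add_le (w x y : α → ℝ) : wn w (x + y) ≤ wn w x + wn w y := by
  refine le_trans (le_of_eq ?_) (norm_add_le _ _)
  rw [wn, ← WithLp.toLp_add]
  exact congrArg (fun f => ‖(WithLp.toLp 2 f : EuclideanSpace ℝ α)‖)
    (funext fun a => by simp [mul_add])

lemma wn_smul (w x : α → ℝ) (c : ℝ) : wn w (c • x) = |c| * wn w x := by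
  rw [wn, wn, ← Real.norm_eq_abs, ← norm_smul, ← WithLp.toLp_smul]
  exact congrArg (fun f => ‖(WithLp.toLp 2 f : EuclideanSpace ℝ α)‖)
    (funext fun a => by simp; ring)

lemma wn_neg (w x : α → ℝ) : wn w (-x) = wn w x := by
  have := wn_smul w x (-1); simpa using this

lemma wn_sub_le (w x y : α → ℝ) : wn w (x - y) ≤ wn w x + wn w y := by
  rw [sub_eq_add_neg, ← wn_neg w y]; exact wn_add_le _ _ _

lemma wn_sq {w : α → ℝ} (hw : ∀ a, 0 ≤ w a) (x : α → ℝ) : wn w x ^ 2 = en w x := by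
  rw [wn, EuclideanSpace.norm_sq_eq, en]
  exact sum_congr rfl fun a _ => by
    rw [Real.norm_eq_abs, sq_abs, mul_pow, Real.sq_sqrt (hw a)]

lemma wn_le {w : α → ℝ} (hw : ∀ a, 0 ≤ w a) {x : α → ℝ} {r : ℝ} (hr : 0 ≤ r)
    (h : en w x ≤ r ^ 2) : wn w x ≤ r := by
  rw [← wn_sq hw] at h
  exact (pow_le_pow_iff_left₀ (wn_nonneg _ _) hr two_ne_zero).1 h

lemma en_le {w : α → ℝ} (hw : ∀ a, 0 ≤ w a) {x : α → ℝ} {r : ℝ} (h : wn w x ≤ r) :
    en w x ≤ r ^ 2 := by
  rw [← wn_sq hw]; exact pow_le_pow_left₀ (wn_nonneg _ _) h 2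

lemma wn_zero (w : α → ℝ) : wn w 0 = 0 := by
  have := wn_smul w 0 0; simpa using this

lemma en_add_le {w : α → ℝ} (hw : ∀ a, 0 ≤ w a) (x y : α → ℝ) :
    en w (x + y) ≤ 2 * (en w x + en w y) := by
  rw [en, en, en, ← sum_add_distrib, mul_sum]
  refine sum_le_sum fun a _ => ?_
  have := mul_nonneg (hw a) (sq_nonneg (x a - y a))
  simp only [Pi.add_apply]; nlinarith

lemma sq_vecMul_le (x : α → ℝ) (M : Matrix α β ℝ) (b : β) :
    (x ᵥ* M) b ^ 2 ≤ nn x * ∑ a, M a b ^ 2 :=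
  sum_mul_sq_le_sq_mul_sq _ _ _

lemma ms_univ (w : β → ℝ) (M : Matrix α β ℝ) : ms w M univ = ∑ b, w b * ∑ a, M a b ^ 2 := by
  simp only [ms, en, mul_sum]; exact sum_comm

lemma en_vecMul_le {w : β → ℝ} (hw : ∀ b, 0 ≤ w b) (x : α → ℝ) (M : Matrix α β ℝ) :
    en w (x ᵥ* M) ≤ nn x * ms w M univ := by
  rw [ms_univ, en, mul_sum]
  refine sum_le_sum fun b _ => ?_
  have := mul_le_mul_of_nonneg_left (sq_vecMul_le x M b) (hw b)
  linarith

/-- Restriction of the rows of a matrix to a set. -/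
noncomputable def rows (B : Finset ι) (u : Matrix ι α ℝ) : Matrix ι α ℝ :=
  open Classical in fun i a => if i ∈ B then u i a else 0

lemma vecMul_rows {B : Finset ι} {y : ι → ℝ} (hy : ∀ i, i ∉ B → y i = 0) (u : Matrix ι α ℝ) :
    y ᵥ* rows B u = y ᵥ* u := by
  funext a
  simp only [vecMul, dotProduct, rows]
  refine sum_congr rfl fun i _ => ?_
  split_ifs with h
  · rfl
  · simp [hy i h]

lemma ms_rows (w : α → ℝ) (B : Finset ι) (u : Matrix ι α ℝ) : ms w (rows B u) univ = ms w u B := by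
  classical
  rw [ms, ms, ← sum_filter_add_sum_filter_not univ (· ∈ B)]
  rw [filter_mem_eq_inter, univ_inter, sum_eq_zero (s := filter _ _), add_zero]
  · exact sum_congr rfl fun i hi => by simp [en, rows, hi]
  · intro i hi
    simp [en, rows, (mem_filter.1 hi).2]

lemma nn_le_card {B : Finset ι} {y : ι → ℝ} (hy : ∀ i, i ∉ B → y i = 0) (h1 : ∀ i, |y i| ≤ 1) :
    nn y ≤ B.card := by
  rw [nn, ← sum_subset (subset_univ B) fun i _ hi => by simp [hy i hi]]
  refine (sum_le_sum (g := fun _ => (1 : ℝ)) fun i _ => ?_).trans (by simp)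
  exact (sq_le_one_iff_abs_le_one _).2 (h1 i)

/-- A combination of few rows with bounded coefficients. -/
lemma en_few {w : α → ℝ} (hw : ∀ a, 0 ≤ w a) (u : Matrix ι α ℝ) {B : Finset ι} {y : ι → ℝ}
    (hy : ∀ i, i ∉ B → y i = 0) (h1 : ∀ i, |y i| ≤ 1) : en w (y ᵥ* u) ≤ B.card * ms w u B := by
  rw [← vecMul_rows hy, ← ms_rows]
  exact (en_vecMul_le hw _ _).trans
    (mul_le_mul_of_nonneg_right (nn_le_card hy h1) (ms_nonneg hw _ _))

lemma nn_vecMul_orth [DecidableEq α] {U : Matrix α β ℝ} (hU : U * Uᵀ = 1) (x : α → ℝ) :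
    nn (x ᵥ* U) = nn x := by
  rw [nn_eq_dot, nn_eq_dot, ← dotProduct_mulVec, ← mulVec_transpose, mulVec_mulVec, hU, one_mulVec]

lemma diag_basis [DecidableEq α] (M : Matrix α β ℝ) (w : β → ℝ) :
    ∃ U : Matrix α α ℝ, U * Uᵀ = 1 ∧
      ∀ y y', y ≠ y' → ∑ b, w b * ((Uᵀ * M) y b * (Uᵀ * M) y' b) = 0 := by
  classical
  have hQ : (M * diagonal w * Mᵀ).IsHermitian := by
    rw [IsHermitian, conjTranspose_eq_transpose_of_trivial]
    simp [transpose_mul, Matrix.mul_assoc]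
  refine ⟨hQ.eigenvectorUnitary, ?_, fun y y' hy => ?_⟩
  · have := hQ.eigenvectorUnitary.2.2
    rwa [star_eq_conjTranspose, conjTranspose_eq_transpose_of_trivial] at this
  · have := hQ.conjStarAlgAut_star_eigenvectorUnitary
    rw [Unitary.conjStarAlgAut_star_apply, star_eq_conjTranspose,
      conjTranspose_eq_transpose_of_trivial] at this
    have h2 := congrFun (congrFun this y) y'
    rw [diagonal_apply_ne _ hy] at h2
    rw [← h2]
    generalize (hQ.eigenvectorUnitary : Matrix α α ℝ) = U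
    have : Uᵀ * (M * diagonal w * Mᵀ) * U = (Uᵀ * M) * diagonal w * (Uᵀ * M)ᵀ := by
      simp [transpose_mul, Matrix.mul_assoc]
    rw [this, Matrix.mul_apply]
    exact sum_congr rfl fun b _ => by rw [mul_diagonal, transpose_apply]; ring

lemma quad_basis (M : Matrix α β ℝ) {w : β → ℝ} (hw : ∀ b, 0 ≤ w b) :
    ∃ U : Matrix α α ℝ, (∀ z, nn (z ᵥ* U) = nn z) ∧
      ∀ z c, (∀ y, |(z ᵥ* U) y| ≤ c) → en w (z ᵥ* M) ≤ c ^ 2 * ms w M univ := by
  classical
  obtain ⟨U, hU, hd⟩ := diag_basis M w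
  refine ⟨U, nn_vecMul_orth hU, fun z c hc => ?_⟩
  have e1 : z ᵥ* M = (z ᵥ* U) ᵥ* (Uᵀ * M) := by
    rw [vecMul_vecMul, ← Matrix.mul_assoc, hU, Matrix.one_mul]
  have e2 : ms w (Uᵀ * M) univ = ms w M univ := by
    rw [ms_univ, ms_univ]
    refine sum_congr rfl fun b _ => congrArg _ ?_
    have := nn_vecMul_orth hU (fun a => M a b)
    simp only [nn, vecMul, dotProduct] at this
    rw [← this]
    exact sum_congr rfl fun y _ => by simp [Matrix.mul_apply, mul_comm]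
  rw [e1, ← e2]
  generalize z ᵥ* U = t at hc
  generalize Uᵀ * M = N at hd
  have e3 : en w (t ᵥ* N) = ∑ y, t y ^ 2 * en w (N y) := by
    calc en w (t ᵥ* N) = ∑ b, ∑ y, ∑ y', t y * t y' * (w b * (N y b * N y' b)) := by
          refine sum_congr rfl fun b _ => ?_
          simp only [vecMul, dotProduct, sq]
          rw [sum_mul_sum]
          simp only [mul_sum]
          exact sum_congr rfl fun y _ => sum_congr rfl fun y' _ => by ring
      _ = ∑ y, ∑ y', t y * t y' * ∑ b, w b * (N y b * N y' b) := by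
          rw [sum_comm]
          refine sum_congr rfl fun y _ => ?_
          rw [sum_comm]
          exact sum_congr rfl fun y' _ => by rw [mul_sum]
      _ = _ := by
          refine sum_congr rfl fun y _ => ?_
          rw [sum_eq_single y (fun y' _ h => by rw [hd y y' h.symm, mul_zero]) (by simp)]
          simp only [en, sq]
  rw [e3, ms, mul_sum]
  refine sum_le_sum fun y _ => mul_le_mul_of_nonneg_right ?_ (en_nonneg hw _)
  exact sq_le_sq' (abs_le.1 (hc y)).1 (abs_le.1 (hc y)).2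

/-- An operator bound passes to the transpose. -/
lemma nn_mulVec_le {Y : Matrix α ι ℝ} {γ : ℝ} (hγ : 0 ≤ γ) (h : ∀ x, nn (x ᵥ* Y) ≤ γ * nn x)
    (g : ι → ℝ) : nn (Y *ᵥ g) ≤ γ * nn g := by
  set t := nn (Y *ᵥ g) with ht
  have e : t = ((Y *ᵥ g) ᵥ* Y) ⬝ᵥ g := by rw [ht, nn_eq_dot, dotProduct_mulVec]
  have h1 : t ^ 2 ≤ nn ((Y *ᵥ g) ᵥ* Y) * nn g := by
    rw [e]; exact sum_mul_sq_le_sq_mul_sq _ _ _
  have h2 := mul_le_mul_of_nonneg_right (h (Y *ᵥ g)) (nn_nonneg g)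
  have h3 : 0 ≤ t := nn_nonneg _
  by_contra hc
  have h4 := mul_nonneg hγ (nn_nonneg g)
  nlinarith

lemma ms_mul_le {Y : Matrix α ι ℝ} {γ : ℝ} (hγ : 0 ≤ γ) (h : ∀ x, nn (x ᵥ* Y) ≤ γ * nn x)
    {C : Finset ι} (hC : ∀ a i, i ∉ C → Y a i = 0) {w : β → ℝ} (hw : ∀ b, 0 ≤ w b)
    (u : Matrix ι β ℝ) : ms w (Y * u) univ ≤ γ * ms w u C := by
  have e : Y * u = Y * rows C u := by
    ext a b
    exact (congrFun (vecMul_rows (hC a) u) b).symm
  rw [e, ← ms_rows w C u, ms_univ, ms_univ, mul_sum]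
  refine sum_le_sum fun b _ => ?_
  have := mul_le_mul_of_nonneg_left (nn_mulVec_le hγ h fun i => rows C u i b) (hw b)
  rw [mul_left_comm] at this
  exact this

lemma ridge_core [DecidableEq α] (W : Matrix ι α ℝ) {s : α → ℝ} {L : ℝ} (hL : 0 < L)
    (hs : ∀ a, L ≤ s a) {a x : α → ℝ} (h : a ᵥ* (Wᵀ * W + diagonal s) = x) :
    nn (a ᵥ* Wᵀ) ≤ 1 / (4 * L) * nn x ∧ L * nn a ≤ ∑ b, x b ^ 2 / s b := by
  have e : x ⬝ᵥ a = nn (a ᵥ* Wᵀ) + en s a := by
    rw [← h, vecMul_add, add_dotProduct, ← vecMul_vecMul, ← dotProduct_mulVec, nn_eq_dot,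
      vecMul_transpose]
    simp only [en, dotProduct, vecMul_diagonal]
    exact congrArg _ (sum_congr rfl fun b _ => by ring)
  have h1 : L * nn a ≤ en s a := by
    rw [nn, mul_sum]
    exact sum_le_sum fun b _ => mul_le_mul_of_nonneg_right (hs b) (sq_nonneg _)
  have h2 : x ⬝ᵥ a ≤ 1 / (4 * L) * nn x + L * nn a := by
    rw [nn, nn, mul_sum, mul_sum, ← sum_add_distrib]
    refine sum_le_sum fun b _ => ?_
    have : 1 / (4 * L) * x b ^ 2 + L * a b ^ 2 - x b * a b = (x b - 2 * L * a b) ^ 2 / (4 * L) := by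
      field_simp; ring
    have : 0 ≤ (x b - 2 * L * a b) ^ 2 / (4 * L) := by positivity
    linarith
  have h3 : 2 * (x ⬝ᵥ a) ≤ ∑ b, x b ^ 2 / s b + en s a := by
    rw [en, dotProduct, mul_sum, ← sum_add_distrib]
    refine sum_le_sum fun b _ => ?_
    have hb : 0 < s b := hL.trans_le (hs b)
    have : x b ^ 2 / s b + s b * a b ^ 2 - 2 * (x b * a b) = (x b - s b * a b) ^ 2 / s b := by
      field_simp; ring
    have : 0 ≤ (x b - s b * a b) ^ 2 / s b := by positivity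
    linarith
  have := nn_nonneg (a ᵥ* Wᵀ)
  constructor <;> linarith

lemma ridge_unit [DecidableEq α] (W : Matrix ι α ℝ) {s : α → ℝ} {L : ℝ} (hL : 0 < L)
    (hs : ∀ a, L ≤ s a) : IsUnit (Wᵀ * W + diagonal s) := by
  rw [← vecMul_injective_iff_isUnit]
  intro a b hab
  have h : (a - b) ᵥ* (Wᵀ * W + diagonal s) = 0 := by
    rw [sub_vecMul]; exact sub_eq_zero.2 hab
  have h2 := (ridge_core W hL hs h).2
  simp only [Pi.zero_apply, ne_eq, OfNat.ofNat_ne_zero, not_false_eq_true, zero_pow, zero_div,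
    sum_const_zero] at h2
  have h3 : nn (a - b) = 0 := le_antisymm (nonpos_of_mul_nonpos_right h2 hL) (nn_nonneg _)
  rw [nn_eq_dot, dotProduct_self_eq_zero] at h3
  exact sub_eq_zero.1 h3

end basics
end Vale.Agent.P262
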