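import Vale.Agent.P262.Step

/-! The cyclic refinement and the resulting ordering. -/

set_option linter.unusedSectionVars false

namespace Vale.Agent.P262
open Finset Matrix

variable {Θ ι : Type} [Fintype Θ] [DecidableEq Θ] [Fintype ι] [DecidableEq ι]

structure Cfg (l : Lv Θ) (v : Matrix ι Θ ℝ) (n : ℕ) (X : ℕ → St ι Θ) : Prop where
  pos : 0 < n
  per : ∀ k, X (k + n) = X k
  inv : ∀ k, Inv l v (X k)
  adj : ∀ k, (X (k + 1)).U = (X k).U + ch (X k).B ᵥ* v + ch (X k).Fx ᵥ* v
  cnt : ∀ i, ∑ k ∈ range n, (ch (X k).B i + ch (X k).Fx i) = 1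

/-- The number of free items. -/
def free (n : ℕ) (X : ℕ → St ι Θ) : ℝ := ∑ k ∈ range n, ∑ i, ch (X k).B i

lemma sum_two_mul (f : ℕ → ℝ) (n : ℕ) :
    ∑ k ∈ range (2 * n), f k = ∑ k ∈ range n, (f (2 * k) + f (2 * k + 1)) := by
  induction n with
  | zero => simp
  | succ n ih => rw [mul_add, mul_one, sum_range_succ, sum_range_succ, sum_range_succ, ih, add_assoc]

lemma sum_shift (f : ℕ → ℝ) (n : ℕ) (h : f n = f 0) :
    ∑ k ∈ range n, f (k + 1) = ∑ k ∈ range n, f k := by
  have h1 := sum_range_succ f n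
  have h2 := sum_range_succ' f n
  linarith

variable {l m : Lv Θ} {v : Matrix ι Θ ℝ}

lemma refine_cfg (hn : l.Next m) (hl : l.OK) (hm : m.OK) (hv : ∀ i, nn (v i) ≤ 1) {n : ℕ}
    {X : ℕ → St ι Θ} (h : Cfg l v n X) (hne : ∃ k < n, (X k).B.Nonempty) :
    ∃ X', Cfg m v (2 * n) X' ∧ free (2 * n) X' + 1 ≤ free n X := by
  have : ∀ Y : St ι Θ, ∃ Z, Inv l v Y → SpOK m v Y Z := fun Y => by
    by_cases hY : Inv l v Y
    · obtain ⟨Z, hZ⟩ := step hn hl hm hv hY
      exact ⟨Z, fun _ => hZ⟩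
    · exact ⟨default, fun h' => absurd h' hY⟩
  choose sp hsp using this
  obtain ⟨Z, hZd⟩ : ∃ Z : ℕ → Sp ι Θ, ∀ k, Z k = sp (X k) := ⟨_, fun _ => rfl⟩
  have hZ : ∀ k, SpOK m v (X k) (Z k) := fun k => hZd k ▸ hsp _ (h.inv k)
  have pZ : ∀ k, Z (k + n) = Z k := fun k => by rw [hZd, hZd, h.per]
  have sh : ∀ i, ∑ k ∈ range n, ch (Z (k + 1)).P0 i = ∑ k ∈ range n, ch (Z k).P0 i := fun i =>
    sum_shift (fun k => ch (Z k).P0 i) n (by rw [← pZ 0, zero_add])
  have pt : ∀ k i, ch (X k).B i = ch (Z k).H i + ch (Z k).P0 i + ch (Z k).X.B i + ch (Z k).P2 i :=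
    fun k i => congrFun (hZ k).part i
  have hd : ∀ k i, ch (Z k).P2 i + ch (Z (k + 1)).P0 i ≤ 1 := by
    intro k i
    have pg : Function.Periodic (fun k => ch (Z k).P2 i + ch (Z (k + 1)).P0 i) n := fun k => by
      simp only [pZ, Nat.add_right_comm k n 1]
    have h1 := pg.map_mod_nat k
    have h2 := single_le_sum (f := fun k => ch (Z k).P2 i + ch (Z (k + 1)).P0 i)
      (fun k _ => add_nonneg (ch_nonneg _ _) (ch_nonneg _ _)) (mem_range.2 (Nat.mod_lt k h.pos))
    rw [h1, sum_add_distrib, sh, ← sum_add_distrib] at h2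
    refine h2.trans ((sum_le_sum fun k _ => ?_).trans (h.cnt i).le)
    linarith [pt k i, ch_nonneg (Z k).H i, ch_nonneg (Z k).X.B i, ch_nonneg (X k).Fx i]
  obtain ⟨X', e0, e1⟩ : ∃ X' : ℕ → St ι Θ, (∀ k, X' (2 * k) = (Z k).X) ∧
      ∀ k, X' (2 * k + 1) = mixed m v (Z k) (Z (k + 1)) := by
    refine ⟨fun k => if k % 2 = 0 then (Z (k / 2)).X else mixed m v (Z (k / 2)) (Z (k / 2 + 1)),
      fun k => ?_, fun k => ?_⟩
    · simp
    · have : (2 * k + 1) / 2 = k := by omega
      simp [this]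
  have eB : ∀ k i, ch (X' (2 * k + 1)).B i = ch (Z k).P2 i + ch (Z (k + 1)).P0 i := fun k i => by
    rw [e1]; exact congrFun (ch_union (hd k)) i
  have key : ∀ i, ∑ k ∈ range (2 * n), ch (X' k).B i + ∑ k ∈ range n, ch (Z k).H i =
      ∑ k ∈ range n, ch (X k).B i := by
    intro i
    rw [sum_two_mul]
    simp only [eB, e0, pt, sum_add_distrib, sh]
    ring
  refine ⟨X', ⟨by linarith [h.pos], fun k => ?_, fun k => ?_, fun k => ?_, fun i => ?_⟩, ?_⟩
  · obtain ⟨j, rfl | rfl⟩ := Nat.even_or_odd' k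
    · rw [← mul_add, e0, e0, pZ]
    · rw [show 2 * j + 1 + 2 * n = 2 * (j + n) + 1 by ring, e1, e1, pZ, Nat.add_right_comm, pZ]
  · obtain ⟨j, rfl | rfl⟩ := Nat.even_or_odd' k
    · rw [e0]; exact (hZ j).inv
    · rw [e1]; exact mixed_inv hm (hZ j) (hZ (j + 1)) (hd j) (h.adj j)
  · obtain ⟨j, rfl | rfl⟩ := Nat.even_or_odd' k
    · rw [e0, e1, (hZ j).fx, (hZ j).eL]; rfl
    · rw [show 2 * j + 1 + 1 = 2 * (j + 1) by ring, e0, e1]
      exact mixed_adj (hZ j) (hZ (j + 1)) (hd j) (h.adj j)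
  · have a1 := key i
    have a2 := h.cnt i
    have a3 : ∑ k ∈ range (2 * n), ch (X' k).Fx i =
        ∑ k ∈ range n, ch (X k).Fx i + ∑ k ∈ range n, ch (Z k).H i := by
      rw [sum_two_mul, ← sum_add_distrib]
      exact sum_congr rfl fun k _ => by rw [e0, e1, (hZ k).fx]; rfl
    rw [sum_add_distrib] at a2 ⊢
    linarith
  · obtain ⟨k, hk, hB⟩ := hne
    obtain ⟨i, hi⟩ := (hZ k).ne hB
    have a1 : 1 ≤ ∑ i, ∑ k ∈ range n, ch (Z k).H i := by
      refine le_trans ?_ (single_le_sum (f := fun i => ∑ k ∈ range n, ch (Z k).H i)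
        (fun _ _ => sum_nonneg fun _ _ => ch_nonneg _ _) (mem_univ i))
      refine le_trans ?_ (single_le_sum (f := fun k => ch (Z k).H i)
        (fun _ _ => ch_nonneg _ _) (mem_range.2 hk))
      simp [ch, hi]
    have a2 := sum_congr rfl fun i (_ : i ∈ univ) => key i
    rw [sum_add_distrib] at a2
    rw [free, free, sum_comm, sum_comm (s := range n)]
    linarith

lemma ch_vecMul' (B : Finset ι) : ch B ᵥ* v = ∑ i ∈ B, v.row i := by
  funext θ; rw [ch_vecMul, Finset.sum_apply]; rfl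

/-- The conclusion: a listing of all items with small initial sums. -/
def Ordered (v : Matrix ι Θ ℝ) (d : ℝ) : Prop :=
  ∃ L : List ι, (∀ i, L.count i = 1) ∧ ∀ t, nn ((L.take t).map v.row).sum ≤ 10 ^ 35 * d

lemma final_cfg {d : ℝ} (hd : 1 ≤ d) (hl : l.Good d) (hv : ∀ i, nn (v i) ≤ 1) {n : ℕ}
    {X : ℕ → St ι Θ} (h : Cfg l v n X) (he : ∀ k < n, (X k).B = ∅) : Ordered v d := by
  have he' : ∀ k, (X k).B = ∅ := fun k => by
    rw [← Function.Periodic.map_mod_nat h.per k]; exact he _ (Nat.mod_lt k h.pos)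
  have c0 : ch (∅ : Finset ι) = 0 := by funext i; simp [ch]
  have hU : ∀ k, nn (X k).U ≤ 10 ^ 34 * d := fun k => by
    have y0 : (X k).yl = 0 := funext fun i => (h.inv k).yl.supp i fun hi => by
      simpa [he' k] using (h.inv k).RB hi
    rw [(h.inv k).eU, y0, zero_vecMul, add_zero]
    exact (h.inv k).b1.nn_le hl
  have main : ∀ k, ∃ L : List ι, (∀ i, (L.count i : ℝ) = ∑ j ∈ range k, ch (X j).Fx i) ∧
      (L.map v.row).sum = (X k).U - (X 0).U ∧ ∀ t, nn ((L.take t).map v.row).sum ≤ 10 ^ 35 * d := by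
    intro k
    induction k with
    | zero => exact ⟨[], by simp, by simp, fun t => by simp [nn]; linarith⟩
    | succ k ih =>
      obtain ⟨L, h1, h2, h3⟩ := ih
      refine ⟨L ++ (X k).Fx.toList, fun i => ?_, ?_, fun t => ?_⟩
      · rw [List.count_append, sum_range_succ, Nat.cast_add, h1,
          List.Nodup.count (X k).Fx.nodup_toList]
        simp [ch]
      · rw [List.map_append, List.sum_append, h2, h.adj, he', c0, zero_vecMul, ch_vecMul',
          Finset.sum_map_toList]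
        abel
      · rw [List.take_append]
        rcases le_total t L.length with ht | ht
        · simpa [Nat.sub_eq_zero_of_le ht] using h3 t
        · rw [List.take_of_length_le ht, List.map_append, List.sum_append, h2]
          set M := (X k).Fx.toList.take (t - L.length)
          have nd : M.Nodup := (X k).Fx.nodup_toList.sublist (List.take_sublist _ _)
          have hM : M.toFinset ⊆ (X k).Fx := fun i hi =>
            mem_toList.1 (List.mem_of_mem_take (List.mem_toFinset.1 hi))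
          have a1 := nn_few hv ((card_le_card hM).trans (h.inv k).card) ch_zero (ch_abs _)
          rw [ch_vecMul', List.sum_toFinset _ nd] at a1
          generalize (M.map v.row).sum = x at a1
          have : nn ((X k).U - (X 0).U + x) ≤ 3 * (nn (X k).U + nn (X 0).U + nn x) := by
            simp only [nn, mul_sum, ← sum_add_distrib]
            refine sum_le_sum fun θ _ => ?_
            simp only [Pi.sub_apply, Pi.add_apply]
            nlinarith [sq_nonneg ((X k).U θ + (X 0).U θ), sq_nonneg ((X k).U θ - x θ),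
              sq_nonneg ((X 0).U θ + x θ)]
          linarith [hU k, hU 0]
  obtain ⟨L, h1, -, h3⟩ := main n
  refine ⟨L, fun i => ?_, h3⟩
  have := h.cnt i
  simp only [he', c0, Pi.zero_apply, zero_add] at this
  exact_mod_cast (h1 i).trans this

lemma run_cfg {d : ℝ} (hd : 1 ≤ d) (hv : ∀ i, nn (v i) ≤ 1) (M : ℕ) :
    ∀ (l : Lv Θ) (n : ℕ) (X : ℕ → St ι Θ), l.Good d → Cfg l v n X → free n X < M → Ordered v d := by
  induction M with
  | zero =>
    intro l n X _ _ h
    have : 0 ≤ free n X := sum_nonneg fun _ _ => sum_nonneg fun _ _ => ch_nonneg _ _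
    simp only [Nat.cast_zero] at h
    linarith
  | succ M ih =>
    intro l n X hl h hM
    by_cases hne : ∃ k < n, (X k).B.Nonempty
    · obtain ⟨X', h1, h2⟩ := refine_cfg hl.nx hl.ok hl.next_good.ok hv h hne
      push_cast at hM
      exact ih _ _ X' hl.next_good h1 (by linarith)
    · push Not at hne
      exact final_cfg hd hl hv h hne

lemma ordered_diag (hd : 0 < Fintype.card Θ) (hv : ∀ i, nn (v i) ≤ 1) (hs : ∑ i, v.row i = 0)
    (ho : ∀ θ θ', θ ≠ θ' → ∑ i, v i θ * v i θ' = 0) : Ordered v (Fintype.card Θ) := by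
  obtain ⟨l, hl, hT, hβ, ha, hΓ, hthin⟩ := Lv.exists_init (fun θ => ∑ i, v i θ ^ 2) hd
  have ok := hl.ok
  have r0 := l.r0
  have c0 : ch (∅ : Finset ι) = 0 := by funext i; simp [ch]
  have e0 : ch univ ᵥ* vv v = l.dT := by
    funext q
    rw [ch_vecMul, Lv.dT, hT]
    split_ifs with h
    · simp [vv, h, sq]
    · exact ho _ _ h
  have cB : wn l.wN (ch univ ᵥ* vv v - l.dT) ≤ 1 * l.r := by rw [e0, sub_self, wn_zero]; linarith
  have hφ := phi_le ok hv cB
  obtain ⟨σ, hσ⟩ := Ctl.run (p := fun _ s => if s then 1 / 3 else 2 / 3) (by simp)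
    (fun _ s => by split_ifs <;> norm_num) (fun _ => by norm_num) (by norm_num)
    (Ctl.thin (S := Bool) _ (a := fun _ s => if s then 1 else 0)
      (fun _ s => by split_ifs <;> simp) (B := univ) (fun k hk => absurd (mem_univ k) hk) (vv v)
      ok.wN0)
  have cz : Carr l v (1 / 100) (univ.filter fun k => σ k) 0 :=
    ⟨fun _ _ => rfl, fun _ => by norm_num, by rw [zero_vecMul, wn_zero]; linarith⟩
  have m0 : mask l.act (0 : Θ → ℝ) = 0 := by funext θ; simp [mask]
  have bz : Bud l 0 := fun ω => by simp [ha, hΓ, en]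
  have hsum : ch univ ᵥ* v = 0 := by rw [ch_vecMul', hs]
  refine run_cfg (by exact_mod_cast hd) hv (Fintype.card ι + 1) l 1
    (fun _ => ⟨univ, univ.filter fun k => σ k, ∅, 0, 0, 0, 0, 0⟩) hl
    ⟨one_pos, fun _ => rfl, fun _ => ⟨subset_univ _, by simp, cB, ?_, ?_, cz, cz, by simp,
      by simp [hsum, c0, m0], bz, bz, by simpa [c0, m0] using bz, by simpa [c0, m0] using bz⟩,
      fun _ => by simp [hsum, c0], fun i => by simp [ch]⟩ (by simp [free, ch])
  · have e : ch (univ.filter fun k => σ k) = (1 / 3 : ℝ) • ch univ +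
        xi (fun _ s => if s then 1 / 3 else 2 / 3) (fun _ s => if s then 1 else 0) σ := by
      funext k; simp [ch, xi]
    rw [e, add_vecMul, smul_vecMul, e0, add_sub_cancel_left]
    exact ok.wn_le ok.wN0 zero_le_one (by linarith [ok.βpos])
  · rw [ms_univ, hβ]
    refine (sum_le_sum (g := fun _ => (10 : ℝ) ^ 18) fun θ _ => ?_).trans ?_
    · unfold Lv.gt
      split_ifs with h
      · norm_num
      · rw [(hthin θ h).1, one_mul]; exact (hthin θ h).2
    · have : (0 : ℝ) ≤ Fintype.card Θ := Nat.cast_nonneg _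
      rw [sum_const, card_univ, nsmul_eq_mul]; linarith

theorem ordered (hd : 0 < Fintype.card Θ) (hv : ∀ i, nn (v i) ≤ 1) (hs : ∑ i, v.row i = 0) :
    Ordered v (Fintype.card Θ) := by
  obtain ⟨U, hU, ho⟩ := diag_basis vᵀ (fun _ => 1)
  have e : ∀ i, (v * U).row i = v.row i ᵥ* U := fun i => rfl
  obtain ⟨L, h1, h2⟩ := ordered_diag (v := v * U) hd
    (fun i => (nn_vecMul_orth hU (v i)).trans_le (hv i))
    (by simp only [e]; rw [← sum_vecMul, hs, zero_vecMul]) (fun θ θ' h => by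
      have := ho θ θ' h
      simpa [← transpose_mul] using this)
  refine ⟨L, h1, fun t => le_of_eq_of_le ?_ (h2 t)⟩
  rw [← nn_vecMul_orth hU]
  refine congrArg nn ?_
  induction L.take t with
  | nil => simp
  | cons a M ih => simp only [List.map_cons, List.sum_cons, add_vecMul, ih, e]

end Vale.Agent.P262
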