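import Vale.Agent.P262.Ridge

/-! The two rounding stages of one refinement step. -/

set_option linter.unusedSectionVars false

namespace Vale.Agent.P262
open Finset Matrix

variable {Θ ι : Type} [Fintype Θ] [DecidableEq Θ] [Fintype ι] [DecidableEq ι]

/-- Thin mass of an item. -/
noncomputable def mu (l : Lv Θ) (v : Matrix ι Θ ℝ) (i : ι) : ℝ := en l.gt (v i)

structure Noise (l : Lv Θ) (v : Matrix ι Θ ℝ) (ξ : ι → ℝ) : Prop where
  th : wn l.gt (ξ ᵥ* v) ≤ 10 ^ 14 * l.r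
  cv : wn l.wN (ξ ᵥ* vv v) ≤ 1 / 100 * l.r
  ma : |ξ ⬝ᵥ mu l v| ≤ 10 ^ 17 * l.β

structure Carr (l : Lv Θ) (v : Matrix ι Θ ℝ) (t : ℝ) (C : Finset ι) (y : ι → ℝ) : Prop where
  supp : ∀ i, i ∉ C → y i = 0
  small : ∀ i, |y i| ≤ 1 / 100
  cv : wn l.wN (y ᵥ* vv v) ≤ t * l.r

structure Pulled (l : Lv Θ) (v : Matrix ι Θ ℝ) (C : Finset ι) (n : Θ → ℝ) (y : ι → ℝ) : Prop where
  carr : Carr l v (1 / 100) C y
  ac : wn l.ga (n - y ᵥ* v) ≤ 10 ^ 14 * l.r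
  th : wn l.gt (y ᵥ* v) ≤ 10 ^ 14 * l.r

structure Ctx (l : Lv Θ) (v : Matrix ι Θ ℝ) (B : Finset ι) : Prop where
  ok : l.OK
  hv : ∀ i, nn (v i) ≤ 1
  phi : 10 ^ 18 * ms l.wN (vv v) B ≤ 20 * l.β
  mass : ms l.gt v B ≤ 9 * 10 ^ 18 * l.β

variable {l : Lv Θ} {v : Matrix ι Θ ℝ} {B : Finset ι}

lemma Ctx.noise (h : Ctx l v B) {S : Type} [Fintype S] (p : ι → S → ℝ) {a : ι → S → ℝ}
    (ha : ∀ k s, |a k s| ≤ 1) {A : Finset ι} (hA : A ⊆ B) (ha' : ∀ k, k ∉ A → ∀ s, a k s = 0)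
    (hμ : ∀ k ∈ A, mu l v k ≤ 10 ^ 13 * l.β) :
    Ctl p (1 + (1 + 1)) fun σ => Noise l v (xi p a σ) := by
  have hβ := h.ok.βpos
  refine ((Ctl.thin p ha ha' v h.ok.gt0).and ((Ctl.thin p ha ha' (vv v) h.ok.wN0).and
    (Ctl.scal p ha ha' (mu l v) (t := 10 ^ 13 * l.β) (by positivity) fun k hk => ?_))).mono
    fun σ hσ => ⟨?_, ?_, ?_⟩
  · exact (abs_of_nonneg (en_nonneg h.ok.gt0 _)).trans_le (hμ k hk)
  · refine h.ok.wn_le h.ok.gt0 (by norm_num) ?_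
    linarith [hσ.1, ms_mono h.ok.gt0 v hA, h.mass]
  · refine h.ok.wn_le h.ok.wN0 (by norm_num) ?_
    linarith [hσ.2.1, ms_mono h.ok.wN0 (vv v) hA, h.phi]
  · linarith [hσ.2.2]

lemma Ctx.pull (h : Ctx l v B) {S : Type} [Fintype S] (p : ι → S → ℝ) {a : ι → S → ℝ}
    (ha : ∀ k s, |a k s| ≤ 1) {C : Finset ι} (hC : C ⊆ B) {κ : ℝ} (hκ : 1 / 6 ≤ κ)
    (hN : wn l.wN (ch C ᵥ* vv v - κ • l.dT) ≤ 2 * l.r) {e : Θ → ℝ} (he : nn e ≤ 4 * 10 ^ 12) :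
    Ctl p (1 + (1 + (1 + 1))) fun σ => ∃ y, Pulled l v C (xi p a σ ᵥ* v + e) y := by
  have hβ := h.ok.βpos
  obtain ⟨Y, hY0, hY1, hY2⟩ := ridge h.ok v C hκ hN
  refine ((Ctl.lin p ha h.hv (by norm_num) hY1).and
    ((Ctl.quad_shift p ha h.hv (1 - Y * v) h.ok.ga0 he).and
      ((Ctl.quad_shift p ha h.hv (Y * v) h.ok.gt0 he).and
        (Ctl.quad_shift p ha h.hv (Y * vv v) h.ok.wN0 he)))).mono
    fun σ hσ => ⟨(xi p a σ ᵥ* v + e) ᵥ* Y, ⟨fun i hi => ?_, fun i => ?_, ?_⟩, ?_, ?_⟩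
  · simp [vecMul, dotProduct, hY0 _ i hi]
  · have h1 : (e ᵥ* Y) i ^ 2 ≤ nn (e ᵥ* Y) :=
      single_le_sum (f := fun i => (e ᵥ* Y) i ^ 2) (fun _ _ => sq_nonneg _) (mem_univ i)
    have h2 : |(e ᵥ* Y) i| ≤ 1 / 1000 := by
      rw [← sq_abs] at h1
      exact (pow_le_pow_iff_left₀ (abs_nonneg _) (by norm_num) two_ne_zero).1
        (by linarith [hY1 e])
    rw [add_vecMul, Pi.add_apply]
    linarith [abs_add_le (((xi p a σ ᵥ* v) ᵥ* Y) i) ((e ᵥ* Y) i), hσ.1 i]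
  · refine h.ok.wn_le h.ok.wN0 (by norm_num) ?_
    rw [vecMul_vecMul]
    linarith [hσ.2.2.2, ms_mul_le (by norm_num) hY1 hY0 h.ok.wN0 (vv v),
      ms_mono h.ok.wN0 (vv v) hC, h.phi]
  · refine h.ok.wn_le h.ok.ga0 (by norm_num) ?_
    have := hσ.2.1
    rw [vecMul_sub, vecMul_one, ← vecMul_vecMul] at this
    linarith
  · refine h.ok.wn_le h.ok.gt0 (by norm_num) ?_
    rw [vecMul_vecMul]
    linarith [hσ.2.2.1, ms_mul_le (by norm_num) hY1 hY0 h.ok.gt0 v, ms_mono h.ok.gt0 v hC, h.mass]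

lemma nn_few (hv : ∀ i, nn (v i) ≤ 1) {H : Finset ι} (hH : H.card ≤ 10 ^ 6) {y : ι → ℝ}
    (hy : ∀ i, i ∉ H → y i = 0) (h1 : ∀ i, |y i| ≤ 1) : nn (y ᵥ* v) ≤ 10 ^ 12 := by
  have e : ∀ x : Θ → ℝ, en (fun _ => 1) x = nn x := fun x => by simp [en, nn]
  have h2 := en_few (w := fun _ => 1) (fun _ => zero_le_one) v hy h1
  have h3 : ms (fun _ => 1) v H ≤ H.card := by
    simp only [ms, e]
    exact (sum_le_sum fun i _ => hv i).trans (by simp)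
  have h4 : (H.card : ℝ) ≤ 10 ^ 6 := by exact_mod_cast hH
  rw [e] at h2
  have h5 : (0 : ℝ) ≤ H.card := Nat.cast_nonneg _
  nlinarith

lemma Ctx.few (h : Ctx l v B) {H : Finset ι} (hB : H ⊆ B) (hH : H.card ≤ 10 ^ 6) {y : ι → ℝ}
    (hy : ∀ i, i ∉ H → y i = 0) (h1 : ∀ i, |y i| ≤ 1) :
    wn l.gt (y ᵥ* v) ≤ 10 ^ 14 * l.r ∧ wn l.wN (y ᵥ* vv v) ≤ 1 / 100 * l.r := by
  have hβ := h.ok.βpos
  have h4 : (H.card : ℝ) ≤ 10 ^ 6 := by exact_mod_cast hH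
  constructor
  · refine h.ok.wn_le h.ok.gt0 (by norm_num) ?_
    linarith [en_few h.ok.gt0 v hy h1, mul_le_mul_of_nonneg_right h4 (ms_nonneg h.ok.gt0 v H),
      ms_mono h.ok.gt0 v hB, h.mass]
  · refine h.ok.wn_le h.ok.wN0 (by norm_num) ?_
    linarith [en_few h.ok.wN0 (vv v) hy h1,
      mul_le_mul_of_nonneg_right h4 (ms_nonneg h.ok.wN0 (vv v) H),
      ms_mono h.ok.wN0 (vv v) hB, h.phi]

lemma Ctx.heavy (h : Ctx l v B) : ∃ H ⊆ B, H.card ≤ 10 ^ 6 ∧ (B.Nonempty → H.Nonempty) ∧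
    ∀ k ∈ B, k ∉ H → mu l v k ≤ 10 ^ 13 * l.β := by
  have hβ := h.ok.βpos
  set H0 := B.filter fun k => 10 ^ 13 * l.β < mu l v k
  have h1 : (H0.card : ℝ) * (10 ^ 13 * l.β) ≤ ms l.gt v H0 := by
    rw [← nsmul_eq_mul]
    exact card_nsmul_le_sum _ _ _ fun k hk => (mem_filter.1 hk).2.le
  have h2 := (h1.trans (ms_mono h.ok.gt0 v (filter_subset _ _))).trans h.mass
  have h3 : (H0.card : ℝ) ≤ 9 * 10 ^ 5 := by nlinarith
  have h4 : H0.card ≤ 9 * 10 ^ 5 := by exact_mod_cast h3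
  have h5 : ∀ k ∈ B, k ∉ H0 → mu l v k ≤ 10 ^ 13 * l.β := fun k hk hn => by
    by_contra hc; exact hn (mem_filter.2 ⟨hk, not_le.1 hc⟩)
  rcases B.eq_empty_or_nonempty with hB | ⟨i, hi⟩
  · exact ⟨H0, filter_subset _ _, by omega, fun hn => absurd hB hn.ne_empty, h5⟩
  · refine ⟨insert i H0, insert_subset hi (filter_subset _ _), ?_, fun _ => insert_nonempty _ _,
      fun k hk hn => h5 k hk fun h0 => hn (mem_insert_of_mem h0)⟩
    have := card_insert_le i H0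
    omega

/-- The weights of the three parts. -/
noncomputable def ww : Fin 3 → ℝ := ![1 / 4, 1 / 2, 1 / 4]

lemma ww_ge (s : Fin 3) : 1 / 4 ≤ ww s := by fin_cases s <;> norm_num [ww]
lemma ww_le (s : Fin 3) : ww s ≤ 1 / 2 := by fin_cases s <;> norm_num [ww]
lemma ww_sum : ∑ s, ww s = 1 := by norm_num [ww, Fin.sum_univ_succ]

lemma stageA (h : Ctx l v B) {A R : Finset ι} (hA : A ⊆ B) (hR : R ⊆ B)
    (hμ : ∀ k ∈ A, mu l v k ≤ 10 ^ 13 * l.β)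
    (hN : wn l.wN (ch R ᵥ* vv v - (2 / 3 : ℝ) • l.dT) ≤ 2 * l.r) {e e' : Θ → ℝ}
    (he : nn e ≤ 4 * 10 ^ 12) (he' : nn e' ≤ 4 * 10 ^ 12) :
    ∃ (C : Fin 3 → Finset ι) (A' : Finset ι) (ξ ζ : Fin 3 → ι → ℝ) (z z' : ι → ℝ),
      ch A = ch A' + ch (C 0) + ch (C 1) + ch (C 2) ∧ (∀ s, C s ⊆ A) ∧ A' ⊆ A ∧
      (∀ s, ch (C s) = (ww s / 2) • ch A + ζ s) ∧
      (∀ s, ch (C s) + ww s • ch A' = ww s • ch A + ξ s) ∧
      (∀ s, Noise l v (ξ s)) ∧ (∀ s, Noise l v (ζ s)) ∧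
      Pulled l v R (ξ 0 ᵥ* v + e) z ∧ Pulled l v R (ξ 2 ᵥ* v + e') z' := by
  let p : ι → Option (Fin 3) → ℝ := fun _ o => o.elim (1 / 2) fun s => ww s / 2
  let a : Fin 3 → ι → Option (Fin 3) → ℝ := fun s k o =>
    if k ∈ A then o.elim (ww s) fun s' => if s' = s then 1 else 0 else 0
  let c : Fin 3 → ι → Option (Fin 3) → ℝ := fun s k o => if k ∈ A ∧ o = some s then 1 else 0
  have ha : ∀ s k o, |a s k o| ≤ 1 := by
    intro s k o
    have h1 := ww_ge s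
    have h2 := ww_le s
    simp only [a]
    split_ifs
    · rcases o with _ | s'
      · rw [Option.elim_none, abs_le]; constructor <;> linarith
      · rw [Option.elim_some]; split_ifs <;> simp
    · simp
  have hc : ∀ s k o, |c s k o| ≤ 1 := by
    intro s k o
    simp only [c]; split_ifs <;> simp
  obtain ⟨σ, h1, h2, ⟨z, h3⟩, ⟨z', h4⟩⟩ := Ctl.run (p := p) (by simp)
    (fun _ o => by
      rcases o with _ | s
      · simp [p]
      · have := ww_ge s; simp only [p, Option.elim_some]; linarith)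
    (fun _ => by
      simp only [p, Fintype.sum_option, Option.elim_none, Option.elim_some, ← sum_div, ww_sum]
      norm_num) (by norm_num)
    ((Ctl.all3 fun s => h.noise p (ha s) hA (fun k hk o => if_neg hk) hμ).and
      ((Ctl.all3 fun s => h.noise p (hc s) hA (fun k hk o => if_neg fun h' => hk h'.1) hμ).and
        ((h.pull p (ha 0) hR (by norm_num) hN he).and (h.pull p (ha 2) hR (by norm_num) hN he'))))
  refine ⟨fun s => A.filter fun k => σ k = some s, A.filter fun k => σ k = none,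
    fun s => xi p (a s) σ, fun s => xi p (c s) σ, z, z', ?_, fun s => filter_subset _ _,
    filter_subset _ _, fun s => ?_, fun s => ?_, h1, h2, h3, h4⟩
  · funext k
    by_cases hk : k ∈ A
    · rcases hσ : σ k with _ | s
      · simp [ch, hk, hσ]
      · fin_cases s <;> simp [ch, hk, hσ]
    · simp [ch, hk]
  · funext k
    by_cases hk : k ∈ A
    · simp [ch, hk, xi, c, p]
    · simp [ch, hk, xi, c]
  · funext k
    by_cases hk : k ∈ A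
    · rcases hσ : σ k with _ | s'
      · simp [ch, hk, hσ, xi, a, p, Fintype.sum_option]; ring
      · simp [ch, hk, hσ, xi, a, p, Fintype.sum_option]; ring
    · simp [ch, hk, xi, a]

lemma stageR (h : Ctx l v B) {A : Finset ι} (hA : A ⊆ B)
    (hμ : ∀ k ∈ A, mu l v k ≤ 10 ^ 13 * l.β) {u : Fin 3 → ι → ℝ}
    (hu0 : ∀ s k, k ∉ A → u s k = 0) (hu1 : ∀ s k, |u s k| ≤ 1 / 25) (hu2 : ∀ k, ∑ s, u s k = 0)
    {C : Fin 3 → Finset ι} (hC : ∀ s, C s ⊆ B)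
    (hN : ∀ s, wn l.wN (ch (C s) ᵥ* vv v - (2 * ww s / 3) • l.dT) ≤ 2 * l.r) :
    ∃ (E : Fin 3 → Finset ι) (ξ : Fin 3 → ι → ℝ),
      ch A = ch (E 0) + ch (E 1) + ch (E 2) ∧ (∀ s, ch (E s) = ww s • ch A + u s + ξ s) ∧
      (∀ s, Noise l v (ξ s)) ∧ ∀ s t, ∃ y, Pulled l v (C t) (ξ s ᵥ* v) y := by
  let p : ι → Fin 3 → ℝ := fun k s => ww s + u s k
  let a : Fin 3 → ι → Fin 3 → ℝ := fun s k o => if k ∈ A ∧ o = s then 1 else 0
  have ha : ∀ s k o, |a s k o| ≤ 1 := by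
    intro s k o
    simp only [a]; split_ifs <;> simp
  obtain ⟨σ, h1, h2⟩ := Ctl.run (p := p) (by simp)
    (fun k s => by
      have := ww_ge s
      have := (abs_le.1 (hu1 s k)).1
      simp only [p]; linarith)
    (fun k => by simp only [p, sum_add_distrib, ww_sum, hu2, add_zero]) (by norm_num)
    ((Ctl.all3 fun s => h.noise p (ha s) hA (fun k hk o => if_neg fun h' => hk h'.1) hμ).and
      (Ctl.all3 fun s => Ctl.all3 fun t => h.pull p (ha s) (hC t) (by linarith [ww_ge t]) (hN t)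
        (e := 0) (by simp [nn])))
  refine ⟨fun s => A.filter fun k => σ k = s, fun s => xi p (a s) σ, ?_, fun s => ?_, h1,
    fun s t => by simpa using h2 s t⟩
  · funext k
    by_cases hk : k ∈ A
    · obtain ⟨s, hσ⟩ : ∃ s, σ k = s := ⟨_, rfl⟩
      fin_cases s <;> simp [ch, hk, hσ]
    · simp [ch, hk]
  · funext k
    by_cases hk : k ∈ A
    · simp [ch, hk, xi, a, p]
    · simp [ch, hk, xi, a, hu0 s k hk]

end Vale.Agent.P262
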