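import Vale.Agent.P262.Level

/-! Covariance estimates at one level and the absorbing map onto carriers. -/

set_option linter.unusedSectionVars false

namespace Vale.Agent.P262
open Finset Matrix

variable {Θ ι : Type} [Fintype Θ] [DecidableEq Θ] [Fintype ι] [DecidableEq ι]

/-- The rank-one tensors of the rows. -/
def vv (v : Matrix ι Θ ℝ) : Matrix ι (Θ × Θ) ℝ := fun i q => v i q.1 * v i q.2

/-- Indicator function of a finite set. -/
def ch (B : Finset ι) : ι → ℝ := fun i => if i ∈ B then 1 else 0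

/-- Restriction of a vector to a set of coordinates. -/
def mask (A : Finset Θ) (x : Θ → ℝ) : Θ → ℝ := fun θ => if θ ∈ A then x θ else 0

lemma ch_vecMul {α : Type} (B : Finset ι) (u : Matrix ι α ℝ) (a : α) :
    (ch B ᵥ* u) a = ∑ i ∈ B, u i a := by
  simp [vecMul, dotProduct, ch]

lemma ch_dot (B : Finset ι) (μ : ι → ℝ) : ch B ⬝ᵥ μ = ∑ i ∈ B, μ i := by
  simp [dotProduct, ch]

lemma diag_le (F : Θ × Θ → ℝ) (hF : ∀ q, 0 ≤ F q) : ∑ θ, F (θ, θ) ≤ ∑ q, F q := by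
  rw [Fintype.sum_prod_type]
  exact sum_le_sum fun θ _ =>
    single_le_sum (f := fun θ' => F (θ, θ')) (fun _ _ => hF _) (mem_univ θ)

variable {l m : Lv Θ} {v : Matrix ι Θ ℝ}

lemma ridge_arith {G T D N n e : ℝ} (hG : 1 ≤ G) (hT : 10 ^ 18 * G ^ 3 ≤ T) (hD : T ≤ 6 * D)
    (hN : 0 ≤ N) (h1 : 10 ^ 18 * e ≤ D⁻¹ ^ 2 * (T * N)) (h4 : n ≤ 2 * (D⁻¹ ^ 2 + e)) :
    G * ((10 ^ 18 * G) ^ 2 * n) ≤ 72 * (1 / G + N) := by
  have hG3 : G ≤ G ^ 3 := by nlinarith [mul_le_mul hG hG zero_le_one (by linarith)]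
  have hT0 : 0 < T := by linarith
  have hD0 : 0 < D := by linarith
  have h5 : D⁻¹ ^ 2 * T ^ 2 ≤ 36 := by
    rw [← mul_pow, show (36 : ℝ) = 6 ^ 2 by norm_num]
    refine pow_le_pow_left₀ (by positivity) ?_ 2
    rw [inv_mul_le_iff₀ hD0]; linarith
  obtain ⟨y, hy⟩ : ∃ y, y = G * (10 ^ 18 * G) ^ 2 * D⁻¹ ^ 2 := ⟨_, rfl⟩
  have hy0 : 0 ≤ y := by rw [hy]; positivity
  have h6 : y * T ≤ 36 * 10 ^ 18 := by
    have e : y * T = 10 ^ 18 * (10 ^ 18 * G ^ 3 * (D⁻¹ ^ 2 * T)) := by rw [hy]; ring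
    have := mul_le_mul_of_nonneg_right hT (show 0 ≤ D⁻¹ ^ 2 * T by positivity)
    have e2 : T * (D⁻¹ ^ 2 * T) = D⁻¹ ^ 2 * T ^ 2 := by ring
    rw [e]; linarith
  have h7 : y ≤ 36 * (1 / G) := by
    rw [mul_one_div, le_div_iff₀ (by linarith)]
    have := mul_le_mul_of_nonneg_left (show 10 ^ 18 * G ≤ T by linarith) hy0
    linarith
  have hc : 0 ≤ G * (10 ^ 18 * G) ^ 2 := by positivity
  have h9 : G * (10 ^ 18 * G) ^ 2 * (10 ^ 18 * e) ≤ 36 * 10 ^ 18 * N := by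
    refine (mul_le_mul_of_nonneg_left h1 hc).trans
      (le_of_eq_of_le ?_ (mul_le_mul_of_nonneg_right h6 hN))
    rw [hy]; ring
  have h11 := mul_le_mul_of_nonneg_left h4 hc
  have e3 : G * (10 ^ 18 * G) ^ 2 * (2 * (D⁻¹ ^ 2 + e)) = 2 * y + 2 * (G * (10 ^ 18 * G) ^ 2 * e) := by
    rw [hy]; ring
  rw [← mul_assoc]
  linarith

theorem ridge (hl : l.OK) (v : Matrix ι Θ ℝ) (C : Finset ι) {κ : ℝ} (hκ : 1 / 6 ≤ κ)
    (hN : wn l.wN (ch C ᵥ* vv v - κ • l.dT) ≤ 2 * l.r) :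
    ∃ Y : Matrix Θ ι ℝ, (∀ θ i, i ∉ C → Y θ i = 0) ∧
      (∀ x, nn (x ᵥ* Y) ≤ (1 / (2 * 10 ^ 9)) ^ 2 * nn x) ∧
      ms l.ga (1 - Y * v) univ ≤ 432 * l.β := by
  obtain ⟨W, hW⟩ : ∃ W : Matrix ι Θ ℝ, ∀ i θ, W i θ = if i ∈ C ∧ θ ∈ l.act then v i θ else 0 :=
    ⟨fun i θ => _, fun _ _ => rfl⟩
  obtain ⟨s, hs'⟩ : ∃ s : Θ → ℝ, ∀ θ, s θ = 10 ^ 18 * l.G θ := ⟨fun θ => _, fun _ => rfl⟩
  have hs : ∀ θ, 10 ^ 18 ≤ s θ := fun θ => by rw [hs']; linarith [hl.G1 θ]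
  have hL : (0 : ℝ) < 10 ^ 18 := by norm_num
  obtain ⟨Q, hQ⟩ : ∃ Q, Q = Wᵀ * W + diagonal s := ⟨_, rfl⟩
  have hu : IsUnit Q.det := (isUnit_iff_isUnit_det _).1 (hQ ▸ ridge_unit W hL hs)
  obtain ⟨M, hM⟩ : ∃ M, M = Q⁻¹ := ⟨_, rfl⟩
  have hMQ : M * Q = 1 := hM ▸ nonsing_inv_mul _ hu
  have hsym : ∀ θ θ', M θ' θ = M θ θ' := by
    intro θ θ'
    have : Qᵀ = Q := by simp [hQ, transpose_mul]
    rw [← transpose_apply M, hM, transpose_nonsing_inv, this]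
  have hY0 : ∀ θ i, i ∉ C → (M * Wᵀ) θ i = 0 := by
    intro θ i hi
    simp [Matrix.mul_apply, hW, hi]
  refine ⟨M * Wᵀ, hY0, fun x => ?_, ?_⟩
  · have := (ridge_core W hL hs (a := x ᵥ* M) (x := x)
      (by rw [← hQ, vecMul_vecMul, hMQ, vecMul_one])).1
    rw [vecMul_vecMul] at this
    refine this.trans (le_of_eq ?_)
    norm_num
  obtain ⟨Δ, hΔ⟩ : ∃ Δ, Δ = ch C ᵥ* vv v - κ • l.dT := ⟨_, rfl⟩
  rw [← hΔ] at hN
  have hN2 : en l.wN Δ ≤ 2 ^ 2 * l.β := hl.en_le hl.wN0 hN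
  have col : ∀ θ ∈ l.act, ∀ θ', (1 - M * Wᵀ * v : Matrix Θ Θ ℝ) θ' θ = M θ θ' * s θ := by
    intro θ hθ θ'
    have e1 : (M * Wᵀ * v) θ' θ = (M * Wᵀ * W) θ' θ := by
      rw [Matrix.mul_apply, Matrix.mul_apply (M := M * Wᵀ)]
      refine sum_congr rfl fun i _ => ?_
      by_cases hi : i ∈ C
      · simp [hW, hi, hθ]
      · simp [hY0 θ' i hi]
    have e2 : M * Wᵀ * W = 1 - M * diagonal s := by
      rw [← hMQ, hQ, Matrix.mul_add, Matrix.mul_assoc]; simp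
    rw [Matrix.sub_apply, e1, e2, Matrix.sub_apply, mul_diagonal, hsym]; ring
  have row : ∀ θ ∈ l.act, l.G θ * (s θ ^ 2 * nn (M θ)) ≤
      72 * (1 / l.G θ + ∑ θ', l.wN (θ, θ') * Δ (θ, θ') ^ 2) := by
    intro θ hθ
    have hTL := hl.TL hθ
    have hT0 : 0 < l.T θ := by linarith
    obtain ⟨D, hD⟩ : ∃ D, D = κ * l.T θ + s θ := ⟨_, rfl⟩
    have hD1 : l.T θ ≤ 6 * D := by nlinarith [hs θ]
    have hD0 : 0 < D := by linarith
    let x0 : Θ → ℝ := Pi.single θ D⁻¹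
    let g : Θ → ℝ := fun θ' => if θ' ∈ l.act then D⁻¹ * Δ (θ, θ') else 0
    have hg : (x0 - M θ) ᵥ* (Wᵀ * W + diagonal s) = g := by
      funext θ'
      have e1 : (M θ ᵥ* (Wᵀ * W + diagonal s)) θ' = (1 : Matrix Θ Θ ℝ) θ θ' := by
        rw [← hMQ, hQ]; rfl
      have e2 : (Wᵀ * W) θ θ' = if θ' ∈ l.act then (ch C ᵥ* vv v) (θ, θ') else 0 := by
        rw [Matrix.mul_apply, ch_vecMul]
        split_ifs with h
        · simp [hW, hθ, h, vv]
        · simp [hW, h]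
      rw [sub_vecMul, Pi.sub_apply, e1, single_vecMul]
      simp only [Pi.smul_apply, Matrix.row, Matrix.add_apply, e2, smul_eq_mul, g, hΔ, Pi.sub_apply,
        Lv.dT]
      by_cases h : θ = θ'
      · subst h
        simp only [if_pos hθ, diagonal_apply_eq, one_apply_eq, if_true]
        field_simp
        rw [hD]; ring
      · simp [one_apply_ne h, h]
    have h2 := (ridge_core W hL hs hg).2
    have h3 : ∑ b, g b ^ 2 / s b = D⁻¹ ^ 2 * (l.T θ * ∑ θ', l.wN (θ, θ') * Δ (θ, θ') ^ 2) := by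
      rw [mul_sum, mul_sum]
      refine sum_congr rfl fun θ' _ => ?_
      have := hl.Gpos θ'
      simp only [g, hs', Lv.wN, hθ, true_and]
      split_ifs
      · field_simp
      · simp
    have h4 : nn (M θ) ≤ 2 * (D⁻¹ ^ 2 + nn (x0 - M θ)) := by
      have e : D⁻¹ ^ 2 = nn x0 := by simp [nn, x0, Pi.single_apply]
      rw [e, nn, nn, nn, ← sum_add_distrib, mul_sum]
      refine sum_le_sum fun a _ => ?_
      simp only [Pi.sub_apply]
      nlinarith [sq_nonneg (2 * x0 a - M θ a)]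
    rw [hs']
    exact ridge_arith (hl.G1 θ) (hl.hT θ hθ) hD1
      (sum_nonneg fun _ _ => mul_nonneg (hl.wN0 _) (sq_nonneg _)) (h2.trans_eq h3) h4
  rw [ms_univ]
  calc ∑ θ, l.ga θ * ∑ θ', (1 - M * Wᵀ * v : Matrix Θ Θ ℝ) θ' θ ^ 2
      ≤ ∑ θ, 72 * ((if θ ∈ l.act then 1 / l.G θ else 0) + ∑ θ', l.wN (θ, θ') * Δ (θ, θ') ^ 2) := by
        refine sum_le_sum fun θ _ => ?_
        unfold Lv.ga
        split_ifs with hθ
        · simp only [col θ hθ, mul_pow, ← sum_mul]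
          rw [mul_comm _ (s θ ^ 2)]
          exact row θ hθ
        · rw [zero_mul, zero_add]
          exact mul_nonneg (by norm_num) (sum_nonneg fun _ _ => mul_nonneg (hl.wN0 _) (sq_nonneg _))
    _ = 72 * (l.b + en l.wN Δ) := by
        rw [← mul_sum, sum_add_distrib, en, Fintype.sum_prod_type]
        simp [Lv.b]
    _ ≤ _ := by linarith [hl.b2]

lemma cov_diag (B : Finset ι) (θ : Θ) :
    ∑ i ∈ B, v i θ ^ 2 = l.T θ + (ch B ᵥ* vv v - l.dT) (θ, θ) := by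
  simp [ch_vecMul, vv, Lv.dT, sq]

lemma phi_le (hl : l.OK) (hv : ∀ i, nn (v i) ≤ 1) {B : Finset ι}
    (hB : wn l.wN (ch B ᵥ* vv v - l.dT) ≤ 1 * l.r) : 10 ^ 18 * ms l.wN (vv v) B ≤ 7 * l.β := by
  have hN := hl.en_le hl.wN0 hB
  set Δ := ch B ᵥ* vv v - l.dT
  have h1 : ∀ q : Θ × Θ, l.wN q ≤ l.wN (q.1, q.1) + l.wN (q.2, q.2) := by
    rintro ⟨θ, θ'⟩
    have a1 := hl.wN0 (θ, θ)
    have a2 := hl.wN0 (θ', θ')
    by_cases h : θ ∈ l.act ∧ θ' ∈ l.act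
    · have t1 := hl.TL h.1
      have t2 := hl.TL h.2
      have g1 := hl.Gpos θ
      have g2 := hl.Gpos θ'
      rcases hl.mono θ h.1 θ' h.2 with h' | h'
      · have : l.wN (θ, θ') ≤ l.wN (θ, θ) := by
          simp only [Lv.wN, h.1, h.2, and_self, if_true]
          exact one_div_le_one_div_of_le (by positivity) (by gcongr)
        simp only; linarith
      · have : l.wN (θ, θ') ≤ l.wN (θ', θ') := by
          simp only [Lv.wN, h.1, h.2, and_self, if_true]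
          exact one_div_le_one_div_of_le (by positivity) (by gcongr)
        simp only; linarith
    · have : l.wN (θ, θ') = 0 := if_neg h
      simp only; linarith
  have h2 : ∀ i, en l.wN (vv v i) ≤ 2 * ∑ θ, l.wN (θ, θ) * v i θ ^ 2 := by
    intro i
    have h0 : 0 ≤ ∑ θ, l.wN (θ, θ) * v i θ ^ 2 :=
      sum_nonneg fun _ _ => mul_nonneg (hl.wN0 _) (sq_nonneg _)
    calc en l.wN (vv v i) ≤ ∑ q : Θ × Θ, (l.wN (q.1, q.1) * v i q.1 ^ 2 * v i q.2 ^ 2 +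
            v i q.1 ^ 2 * (l.wN (q.2, q.2) * v i q.2 ^ 2)) := by
          refine sum_le_sum fun q _ => ?_
          have := mul_le_mul_of_nonneg_right (h1 q) (sq_nonneg (vv v i q))
          simp only [vv] at this ⊢
          linarith
      _ = (∑ θ, l.wN (θ, θ) * v i θ ^ 2) * nn (v i) + nn (v i) * ∑ θ, l.wN (θ, θ) * v i θ ^ 2 := by
          rw [sum_add_distrib, Fintype.sum_prod_type, Fintype.sum_prod_type, nn, sum_mul_sum,
            sum_mul_sum]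
      _ ≤ _ := by nlinarith [hv i]
  have h3 : ∀ θ, 10 ^ 18 * (l.wN (θ, θ) * ∑ i ∈ B, v i θ ^ 2) ≤
      3 / 2 * (if θ ∈ l.act then 1 / l.G θ else 0) + 1 / 2 * (l.wN (θ, θ) * Δ (θ, θ) ^ 2) := by
    intro θ
    rw [cov_diag (l := l)]
    split_ifs with h
    · have t1 := hl.TL h
      have g1 := hl.Gpos θ
      have e1 : 10 ^ 18 * (l.wN (θ, θ) * l.T θ) = 1 / l.G θ := by
        have : l.T θ ≠ 0 := by linarith
        simp only [Lv.wN, h, and_self, if_true]; field_simp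
      have w0 := hl.wN0 (θ, θ)
      have e2 := mul_le_mul_of_nonneg_left t1 w0
      have e3 := mul_nonneg w0 (sq_nonneg (Δ (θ, θ) - 10 ^ 18))
      nlinarith
    · simp [Lv.wN, h]
  have h4 := diag_le (fun q => l.wN q * Δ q ^ 2) fun q => mul_nonneg (hl.wN0 _) (sq_nonneg _)
  have h5 : ms l.wN (vv v) B ≤ 2 * ∑ θ, l.wN (θ, θ) * ∑ i ∈ B, v i θ ^ 2 := by
    refine (sum_le_sum fun i _ => h2 i).trans (le_of_eq ?_)
    rw [← mul_sum, sum_comm]; simp only [mul_sum]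
  have h6 := sum_le_sum fun θ (_ : θ ∈ univ) => h3 θ
  rw [← mul_sum, sum_add_distrib, ← mul_sum, ← mul_sum] at h6
  have h7 : ∑ θ, (if θ ∈ l.act then 1 / l.G θ else 0) = l.b := by simp [Lv.b]
  have h8 := hl.b2
  simp only [en] at hN
  linarith

lemma phi_next (hn : l.Next m) (hl : l.OK) (hm : m.OK) (hv : ∀ i, nn (v i) ≤ 1) {B : Finset ι}
    (hB : wn l.wN (ch B ᵥ* vv v - l.dT) ≤ 1 * l.r) : 10 ^ 18 * ms m.wN (vv v) B ≤ 20 * m.β := by
  have h1 := phi_le hl hv hB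
  have h2 : ms m.wN (vv v) B ≤ 5 / 2 * ms l.wN (vv v) B := by
    rw [ms, ms, mul_sum]
    exact sum_le_sum fun i _ => en_mono (hn.wN_le hl hm) _
  linarith [hn.β_le hl, hm.βpos]

lemma mass_next (hn : l.Next m) (hl : l.OK) {B : Finset ι}
    (hB : wn l.wN (ch B ᵥ* vv v - l.dT) ≤ 1 * l.r) (hM : ms l.gt v B ≤ 6 * 10 ^ 18 * l.β) :
    ms m.gt v B ≤ 9 * 10 ^ 18 * m.β := by
  have hN := hl.en_le hl.wN0 hB
  set Δ := ch B ᵥ* vv v - l.dT
  have e : ∀ w : Θ → ℝ, ms w v B = ∑ θ, w θ * ∑ i ∈ B, v i θ ^ 2 := by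
    intro w; simp only [ms, en, mul_sum]; exact sum_comm
  have h3 : ∀ θ, m.gt θ * ∑ i ∈ B, v i θ ^ 2 ≤ 5 / 4 * (l.gt θ * ∑ i ∈ B, v i θ ^ 2) +
      (3 * 10 ^ 18 * (if θ ∈ l.act then 1 / l.G θ else 0) +
        10 ^ 18 / 2 * (l.wN (θ, θ) * Δ (θ, θ) ^ 2)) := by
    intro θ
    have w0 := mul_nonneg (hl.wN0 (θ, θ)) (sq_nonneg (Δ (θ, θ)))
    have g1 := hl.Gpos θ
    by_cases h : θ ∈ l.act
    · by_cases h' : θ ∈ m.act
      · simp only [Lv.gt, h, h', if_true, zero_mul]; positivity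
      · obtain ⟨c1, c2, c3⟩ := hn.cross θ h h'
        have t1 := hl.TL h
        have e1 : 10 ^ 18 * (l.wN (θ, θ) * l.T θ) = 1 := by
          have : l.T θ ≠ 0 := by linarith
          simp only [Lv.wN, h, and_self, if_true, c2]; field_simp
        have e2 := mul_le_mul_of_nonneg_left c1 w0
        have e3 : l.wN (θ, θ) * Δ (θ, θ) ^ 2 * l.T θ * 10 ^ 18 = Δ (θ, θ) ^ 2 := by
          linear_combination (Δ (θ, θ) ^ 2) * e1
        simp only [Lv.gt, h, h', if_true, if_false, c2, c3, zero_mul, one_mul]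
        rw [cov_diag (l := l)]
        nlinarith [sq_nonneg (Δ (θ, θ) - 2 * 10 ^ 18)]
    · have h' : θ ∉ m.act := fun h' => h (hn.sub h')
      simp only [Lv.gt, h, h', if_false, hn.thin θ h]
      linarith
  have h4 := diag_le (fun q => l.wN q * Δ q ^ 2) fun q => mul_nonneg (hl.wN0 _) (sq_nonneg _)
  have h6 := sum_le_sum fun θ (_ : θ ∈ univ) => h3 θ
  rw [sum_add_distrib, sum_add_distrib, ← mul_sum, ← mul_sum, ← mul_sum, ← e, ← e] at h6
  have h7 : ∑ θ, (if θ ∈ l.act then 1 / l.G θ else 0) = l.b := by simp [Lv.b]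
  simp only [en] at hN
  rw [hn.hβ]
  linarith [hl.b_nonneg, hl.βpos]

lemma nn_mask_le (A : Finset Θ) (x : Θ → ℝ) : nn (mask A x) ≤ nn x :=
  sum_le_sum fun θ _ => by
    unfold mask; split_ifs
    · exact le_rfl
    · simpa using sq_nonneg (x θ)

lemma cross_le (hn : l.Next m) (hl : l.OK) (hm : m.OK) {D : Θ → ℝ} (hD : nn D ≤ 10 ^ 12) :
    wn m.gt (mask l.act D) ≤ 10 ^ 14 * m.r := by
  refine hm.wn_le hm.gt0 (by norm_num) ?_
  have hb := hn.b_le hl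
  have h0 := hm.βpos
  by_cases h : ∃ θ ∈ l.act, θ ∉ m.act
  · obtain ⟨θ, h1, h2⟩ := h
    have h3 : 1 / l.G θ ≤ l.b := single_le_sum (f := fun θ => 1 / l.G θ)
      (fun θ _ => div_nonneg zero_le_one (hl.G0 θ)) h1
    rw [(hn.cross θ h1 h2).2.1] at h3
    have h4 : en m.gt (mask l.act D) ≤ nn D := by
      refine sum_le_sum fun θ _ => ?_
      unfold mask Lv.gt
      split_ifs with a1 a2 a3
      · simpa using sq_nonneg (D θ)
      · simpa using sq_nonneg (D θ)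
      · rw [(hn.cross θ a3 a1).2.2, one_mul]
      · simpa using sq_nonneg (D θ)
    linarith
  · push Not at h
    have : en m.gt (mask l.act D) = 0 := sum_eq_zero fun θ _ => by
      unfold mask Lv.gt
      split_ifs with a1 a2 a3
      · simp
      · simp
      · exact absurd (h θ a3) a1
      · simp
    rw [this]; positivity

lemma wn_thin (hm : m.OK) (x : Θ → ℝ) : wn m.G (x - mask m.act x) = wn m.gt x := by
  have : en m.G (x - mask m.act x) = en m.gt x := sum_congr rfl fun θ _ => by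
    simp only [mask, Lv.gt, Pi.sub_apply]; split_ifs <;> simp
  rw [← wn_sq hm.G0, ← wn_sq hm.gt0] at this
  exact (pow_left_inj₀ (wn_nonneg _ _) (wn_nonneg _ _) two_ne_zero).1 this

lemma mask_mask (hn : l.Next m) (x : Θ → ℝ) : mask m.act (mask l.act x) = mask m.act x := by
  funext θ
  unfold mask
  split_ifs with a1 a2
  · rfl
  · exact absurd (hn.sub a1) a2
  · rfl

/-- The budget set of a level. -/
def Bud (l : Lv Θ) (F : Θ → ℝ) : Prop := ∀ ω : Θ → ℝ, ω ⬝ᵥ F ≤ l.a + en l.Γ ω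

lemma Bud.mix {F F' : Θ → ℝ} (h : Bud l F) (h' : Bud l F') :
    Bud l ((3 / 4 : ℝ) • F + (1 / 4 : ℝ) • F') := by
  intro ω
  rw [dotProduct_add, dotProduct_smul, dotProduct_smul, smul_eq_mul, smul_eq_mul]
  linarith [h ω, h' ω]

lemma Bud.add (hn : l.Next m) (hm : m.OK) {F ρ F' : Θ → ℝ} (h : Bud l F)
    (hρ : wn m.G ρ ≤ 2 * 10 ^ 15 * m.r) (e : F' = F + ρ) : Bud m F' := by
  intro ω
  have h1 := hm.en_le hm.G0 hρ
  have h2 : ω ⬝ᵥ ρ + en l.Γ ω ≤ 1 / 4 * en m.G ρ + en m.Γ ω := by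
    simp only [en, dotProduct, mul_sum, ← sum_add_distrib]
    refine sum_le_sum fun θ _ => ?_
    have g := hm.Gpos θ
    have : 1 / 4 * (m.G θ * ρ θ ^ 2) + 1 / m.G θ * ω θ ^ 2 - ω θ * ρ θ =
        (m.G θ * ρ θ - 2 * ω θ) ^ 2 / (4 * m.G θ) := by field_simp; ring
    have : 0 ≤ (m.G θ * ρ θ - 2 * ω θ) ^ 2 / (4 * m.G θ) := by positivity
    rw [hn.hΓ]; linarith
  rw [e, dotProduct_add, hn.ha]
  linarith [h ω]

lemma Bud.nn_le {d : ℝ} (hl : l.Good d) {F : Θ → ℝ} (h : Bud l F) : nn F ≤ 10 ^ 34 * d := by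
  have h1 := h ((1 / 20 : ℝ) • F)
  have h2 : en l.Γ ((1 / 20 : ℝ) • F) ≤ 1 / 40 * nn F := by
    rw [en, nn, mul_sum]
    refine sum_le_sum fun θ _ => ?_
    have := mul_le_mul_of_nonneg_right (hl.Γ_le θ) (sq_nonneg (F θ))
    simp only [Pi.smul_apply, smul_eq_mul]; linarith
  rw [smul_dotProduct, ← nn_eq_dot, smul_eq_mul] at h1
  have h3 := hl.a_le
  have h4 := nn_nonneg F
  have h5 : 0 ≤ d := by linarith
  linarith

end Vale.Agent.P262
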