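import Vale.Agent.P262.Komlos

/-! Rounding of probability vectors with bounded error in every coordinate. -/

namespace Vale.Agent.P262
open Finset

lemma round_aux {ι κ : Type} [Fintype ι] [Fintype κ] (u : ι → κ → ℝ)
    (hu : ∀ i, ∑ a, u i a ^ 2 ≤ 1) (m : ℕ) : ∀ p : ι → ℝ, (∀ i, 0 ≤ p i ∧ p i ≤ 1) →
    ∃ x : ι → ℝ, (∀ i, x i = 0 ∨ x i = 1) ∧
      ∀ a, |∑ i, (x i - p i) * u i a| ≤ 181 + Fintype.card ι / 2 ^ m := by
  classical
  induction m with
  | zero =>
    intro p hp
    refine ⟨fun _ => 0, fun _ => Or.inl rfl, fun a => ?_⟩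
    refine (abs_sum_le_sum_abs _ _).trans ?_
    refine (sum_le_sum (g := fun _ => (1 : ℝ)) fun i _ => ?_).trans (by simp)
    have h1 : u i a ^ 2 ≤ 1 :=
      (single_le_sum (f := fun a => u i a ^ 2) (fun _ _ => sq_nonneg _) (mem_univ a)).trans (hu i)
    have h2 : |u i a| ≤ 1 := (sq_le_one_iff_abs_le_one _).1 h1
    rw [abs_mul, zero_sub, abs_neg, abs_of_nonneg (hp i).1]
    exact mul_le_one₀ (hp i).2 (abs_nonneg _) h2
  | succ m ih =>
    intro p hp
    let b : ι → ℝ := fun i => if p i ≤ 1 / 2 then 0 else 1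
    have hb : ∀ i, b i = 0 ∨ b i = 1 := fun i => by simp only [b]; split_ifs <;> simp
    obtain ⟨x, hx, hx2⟩ := ih (fun i => 2 * p i - b i) (fun i => by
      have := hp i
      simp only [b]; split_ifs <;> constructor <;> linarith)
    obtain ⟨ε, hε, hε2⟩ := komlos (fun i a => if x i = b i then 0 else u i a) (fun i => by
      split_ifs
      · simp
      · exact hu i)
    refine ⟨fun i => if x i = b i then b i else (1 + ε i) / 2, fun i => ?_, fun a => ?_⟩
    · beta_reduce
      split_ifs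
      · exact hb i
      · rcases hε i with h | h <;> simp [h]
    · have e : ∑ i, ((if x i = b i then b i else (1 + ε i) / 2) - p i) * u i a =
          (∑ i, (x i - (2 * p i - b i)) * u i a + ∑ i, ε i * (if x i = b i then 0 else u i a)) / 2 := by
        rw [← sum_add_distrib, sum_div]
        refine sum_congr rfl fun i _ => ?_
        split_ifs with h
        · rw [h]; ring
        · have : x i + b i = 1 := by
            rcases hx i with h1 | h1 <;> rcases hb i with h2 | h2 <;> simp_all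
          have : x i = 1 - b i := by linarith
          rw [this]; ring
      rw [e, abs_div, abs_two]
      have := (abs_add_le _ _).trans (add_le_add (hx2 a) (hε2 a))
      rw [pow_succ, ← div_div]
      linarith

theorem round_bin {ι κ : Type} [Fintype ι] [Fintype κ] (u : ι → κ → ℝ)
    (hu : ∀ i, ∑ a, u i a ^ 2 ≤ 1) (p : ι → ℝ) (hp : ∀ i, 0 ≤ p i ∧ p i ≤ 1) :
    ∃ x : ι → ℝ, (∀ i, x i = 0 ∨ x i = 1) ∧ ∀ a, |∑ i, (x i - p i) * u i a| ≤ 182 := by
  obtain ⟨x, hx, h⟩ := round_aux u hu (Fintype.card ι) p hp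
  refine ⟨x, hx, fun a => (h a).trans ?_⟩
  have : (Fintype.card ι : ℝ) ≤ 2 ^ Fintype.card ι := by
    exact_mod_cast Nat.lt_two_pow_self.le
  have := (div_le_one (by positivity)).2 this
  linarith

theorem round_fin {ι κ : Type} [Fintype ι] [Fintype κ] (r : ℕ) :
    ∀ (u : ι → Fin (r + 1) → κ → ℝ) (p : ι → Fin (r + 1) → ℝ), (∀ i s, ∑ a, u i s a ^ 2 ≤ 1) →
    (∀ i s, 0 ≤ p i s) → (∀ i, ∑ s, p i s ≤ 1) →
    ∃ σ : ι → Fin (r + 1), ∀ a,
      |∑ i, ((∑ s, p i s) * u i (σ i) a - ∑ s, p i s * u i s a)| ≤ 364 * r := by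
  classical
  induction r with
  | zero =>
    intro u p _ _ _
    exact ⟨fun _ => 0, fun a => by simp⟩
  | succ r ih =>
    intro u p hu h0 h1
    have hq : ∀ i, 0 ≤ ∑ s : Fin (r + 1), p i s.succ := fun i => sum_nonneg fun s _ => h0 _ _
    obtain ⟨σ, hσ⟩ := ih (fun i s => u i s.succ) (fun i s => p i s.succ) (fun i s => hu _ _)
      (fun i s => h0 _ _) (fun i => by
        have := h1 i; rw [Fin.sum_univ_succ] at this; linarith [h0 i 0])
    obtain ⟨x, hx, hx2⟩ := round_bin
      (fun i a => (∑ s, p i s) * (u i 0 a - u i (σ i).succ a) / 2) (fun i => by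
        have hm : 0 ≤ ∑ s, p i s := sum_nonneg fun s _ => h0 _ _
        have hm2 : (∑ s, p i s) ^ 2 ≤ 1 := by nlinarith [h1 i]
        calc _ ≤ ∑ a, (u i 0 a ^ 2 + u i (σ i).succ a ^ 2) / 2 := by
              refine sum_le_sum fun a _ => ?_
              have := mul_le_of_le_one_left (sq_nonneg (u i 0 a - u i (σ i).succ a)) hm2
              nlinarith [sq_nonneg (u i 0 a + u i (σ i).succ a)]
          _ ≤ 1 := by
              rw [← sum_div, sum_add_distrib]; linarith [hu i 0, hu i (σ i).succ])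
      (fun i => p i 0 / ∑ s, p i s) (fun i => by
        have hm : 0 ≤ ∑ s, p i s := sum_nonneg fun s _ => h0 _ _
        refine ⟨div_nonneg (h0 _ _) hm, div_le_one_of_le₀ ?_ hm⟩
        rw [Fin.sum_univ_succ]; linarith [hq i])
    refine ⟨fun i => if x i = 1 then 0 else (σ i).succ, fun a => ?_⟩
    have e : ∑ i, ((∑ s, p i s) * u i (if x i = 1 then 0 else (σ i).succ) a - ∑ s, p i s * u i s a) =
        ∑ i, ((∑ s : Fin (r + 1), p i s.succ) * u i (σ i).succ a -
          ∑ s : Fin (r + 1), p i s.succ * u i s.succ a) +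
        2 * ∑ i, (x i - p i 0 / ∑ s, p i s) *
          ((∑ s, p i s) * (u i 0 a - u i (σ i).succ a) / 2) := by
      rw [mul_sum, ← sum_add_distrib]
      refine sum_congr rfl fun i _ => ?_
      have hd : p i 0 / (∑ s, p i s) * ∑ s, p i s = p i 0 := by
        by_cases hz : ∑ s, p i s = 0
        · rw [hz, mul_zero]
          rw [Fin.sum_univ_succ] at hz
          linarith [hq i, h0 i 0]
        · exact div_mul_cancel₀ _ hz
      have e1 : 2 * ((x i - p i 0 / ∑ s, p i s) * ((∑ s, p i s) * (u i 0 a - u i (σ i).succ a) / 2))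
          = (x i * ∑ s, p i s - p i 0) * (u i 0 a - u i (σ i).succ a) := by
        linear_combination (-(u i 0 a - u i (σ i).succ a)) * hd
      rw [e1, Fin.sum_univ_succ (fun s => p i s * u i s a), Fin.sum_univ_succ (p i)]
      rcases hx i with h | h
      · rw [if_neg (by rw [h]; norm_num), h]; ring
      · rw [if_pos h, h]; ring
    rw [e]
    have := abs_add_le (∑ i, ((∑ s : Fin (r + 1), p i s.succ) * u i (σ i).succ a -
          ∑ s : Fin (r + 1), p i s.succ * u i s.succ a)) (2 * ∑ i, (x i - p i 0 / ∑ s, p i s) *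
          ((∑ s, p i s) * (u i 0 a - u i (σ i).succ a) / 2))
    rw [abs_mul, abs_two] at this
    have h3 := hσ a
    have h4 := hx2 a
    push_cast
    linarith

/-- Multiway rounding for at most four outcomes. -/
theorem round_multi {ι κ S : Type} [Fintype ι] [Fintype κ] [Fintype S] [Nonempty S]
    (hS : Fintype.card S ≤ 4) (u : ι → S → κ → ℝ) (p : ι → S → ℝ)
    (hu : ∀ i s, ∑ a, u i s a ^ 2 ≤ 1) (h0 : ∀ i s, 0 ≤ p i s) (h1 : ∀ i, ∑ s, p i s = 1) :
    ∃ σ : ι → S, ∀ a, |∑ i, (u i (σ i) a - ∑ s, p i s * u i s a)| ≤ 1092 := by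
  obtain ⟨r, hr⟩ : ∃ r, Fintype.card S = r + 1 :=
    Nat.exists_eq_succ_of_ne_zero Fintype.card_ne_zero
  let e : Fin (r + 1) ≃ S := (Fintype.equivFinOfCardEq hr).symm
  obtain ⟨σ, hσ⟩ := round_fin r (fun i s => u i (e s)) (fun i s => p i (e s)) (fun i s => hu _ _)
    (fun i s => h0 _ _) (fun i => by rw [Equiv.sum_comp e (p i), h1])
  refine ⟨fun i => e (σ i), fun a => ?_⟩
  have := hσ a
  simp only [Equiv.sum_comp e (p _), h1, one_mul,
    fun i => Equiv.sum_comp e (fun s => p i s * u i s a)] at this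
  have h2 : (r : ℝ) ≤ 3 := by exact_mod_cast (by omega : r ≤ 3)
  linarith

end Vale.Agent.P262
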