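import Vale.Agent.P262.Core

/-! Stations, their invariant, and the two kinds of children. -/

set_option linter.unusedSectionVars false

namespace Vale.Agent.P262
open Finset Matrix

/-- A station: a free class `B` with carriers `R`, a frozen set `Fx` and a starting point `U`. -/
structure St (ι Θ : Type) where
  B : Finset ι
  R : Finset ι
  Fx : Finset ι
  U : Θ → ℝ
  Fl : Θ → ℝ
  Fr : Θ → ℝ
  yl : ι → ℝ
  yr : ι → ℝ

/-- The data produced by splitting a station. -/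
structure Sp (ι Θ : Type) where
  H : Finset ι
  P0 : Finset ι
  P2 : Finset ι
  C0 : Finset ι
  C2 : Finset ι
  X : St ι Θ
  FL : Θ → ℝ
  FR : Θ → ℝ
  yL : ι → ℝ
  yR : ι → ℝ

variable {Θ ι : Type} [Fintype Θ] [DecidableEq Θ] [Fintype ι] [DecidableEq ι]

instance : Inhabited (Sp ι Θ) := ⟨⟨∅, ∅, ∅, ∅, ∅, ⟨∅, ∅, ∅, 0, 0, 0, 0, 0⟩, 0, 0, 0, 0⟩⟩

structure Inv (l : Lv Θ) (v : Matrix ι Θ ℝ) (X : St ι Θ) : Prop where
  RB : X.R ⊆ X.B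
  card : X.Fx.card ≤ 10 ^ 6
  cB : wn l.wN (ch X.B ᵥ* vv v - l.dT) ≤ 1 * l.r
  cR : wn l.wN (ch X.R ᵥ* vv v - (1 / 3 : ℝ) • l.dT) ≤ 1 * l.r
  mB : ms l.gt v X.B ≤ 6 * 10 ^ 18 * l.β
  yl : Carr l v (1 / 100) X.R X.yl
  yr : Carr l v (1 / 100) X.R X.yr
  eU : X.U = X.Fl + X.yl ᵥ* v
  eW : X.U + ch X.B ᵥ* v = X.Fr + X.yr ᵥ* v - mask l.act (ch X.Fx ᵥ* v)
  b1 : Bud l X.Fl
  b2 : Bud l X.Fr
  b3 : Bud l (X.Fl + (ch X.Fx ᵥ* v - mask l.act (ch X.Fx ᵥ* v)))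
  b4 : Bud l (X.Fr + (ch X.Fx ᵥ* v - mask l.act (ch X.Fx ᵥ* v)))

structure SpOK (m : Lv Θ) (v : Matrix ι Θ ℝ) (X : St ι Θ) (Z : Sp ι Θ) : Prop where
  part : ch X.B = ch Z.H + ch Z.P0 + ch Z.X.B + ch Z.P2
  ne : X.B.Nonempty → Z.H.Nonempty
  card : Z.H.card ≤ 10 ^ 6
  s0 : Z.C0 ⊆ Z.P0
  s2 : Z.C2 ⊆ Z.P2
  cP0 : wn m.wN (ch Z.P0 ᵥ* vv v - (1 / 2 : ℝ) • m.dT) ≤ 1 / 2 * m.r
  cP2 : wn m.wN (ch Z.P2 ᵥ* vv v - (1 / 2 : ℝ) • m.dT) ≤ 1 / 2 * m.r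
  cC0 : wn m.wN (ch Z.C0 ᵥ* vv v - (1 / 6 : ℝ) • m.dT) ≤ 1 / 2 * m.r
  cC2 : wn m.wN (ch Z.C2 ᵥ* vv v - (1 / 6 : ℝ) • m.dT) ≤ 1 / 2 * m.r
  mP0 : ms m.gt v Z.P0 ≤ 3 * 10 ^ 18 * m.β
  mP2 : ms m.gt v Z.P2 ≤ 3 * 10 ^ 18 * m.β
  hH : wn m.gt (ch Z.H ᵥ* v) ≤ 10 ^ 14 * m.r
  inv : Inv m v Z.X
  fx : Z.X.Fx = X.Fx
  u0 : Z.X.U = X.U + ch Z.P0 ᵥ* v
  yL : Carr m v (1 / 100) Z.C2 Z.yL
  yR : Carr m v (1 / 100) Z.C0 Z.yR
  eL : Z.X.U + ch Z.X.B ᵥ* v + ch X.Fx ᵥ* v = Z.FL + Z.yL ᵥ* v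
  eR : Z.X.U = Z.FR + Z.yR ᵥ* v
  bL : ∀ ρ, wn m.G ρ ≤ 10 ^ 14 * m.r → Bud m (Z.FL + ρ)
  bR : ∀ ρ, wn m.G ρ ≤ 10 ^ 14 * m.r → Bud m (Z.FR + ρ)

variable {l m : Lv Θ} {v : Matrix ι Θ ℝ}

lemma Carr.neg {t : ℝ} {C : Finset ι} {y : ι → ℝ} (h : Carr l v t C y) : Carr l v t C (-y) :=
  ⟨fun i hi => by simp [h.supp i hi], fun i => by simpa using h.small i,
    by rw [neg_vecMul, wn_neg]; exact h.cv⟩

lemma Carr.mono {t : ℝ} {C C' : Finset ι} {y : ι → ℝ} (h : Carr l v t C y) (hC : C ⊆ C') :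
    Carr l v t C' y :=
  ⟨fun i hi => h.supp i fun h' => hi (hC h'), h.small, h.cv⟩

lemma Carr.mix (hn : l.Next m) (hl : l.OK) (hm : m.OK) {C : Finset ι} {y y' : ι → ℝ}
    (h : Carr l v (1 / 100) C y) (h' : Carr l v (1 / 100) C y') :
    Carr m v (1 / 60) C ((3 / 4 : ℝ) • y + (1 / 4 : ℝ) • y') := by
  refine ⟨fun i hi => by simp [h.supp i hi, h'.supp i hi], fun i => ?_, ?_⟩
  · have a1 := abs_le.1 (h.small i)
    have a2 := abs_le.1 (h'.small i)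
    simp only [Pi.add_apply, Pi.smul_apply, smul_eq_mul]
    rw [abs_le]; constructor <;> linarith
  · have a1 := hn.transfer hl hm (by norm_num) h.cv
    have a2 := hn.transfer hl hm (by norm_num) h'.cv
    rw [add_vecMul, smul_vecMul, smul_vecMul]
    refine (wn_add_le _ _ _).trans ?_
    rw [wn_smul, wn_smul, abs_of_pos (by norm_num), abs_of_pos (by norm_num)]
    linarith

theorem step (hn : l.Next m) (hl : l.OK) (hm : m.OK) (hv : ∀ i, nn (v i) ≤ 1) {X : St ι Θ}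
    (h : Inv l v X) : ∃ Z, SpOK m v X Z := by
  have r0 := m.r0
  have hD : nn (ch X.Fx ᵥ* v) ≤ 10 ^ 12 := nn_few hv h.card ch_zero (ch_abs _)
  have hB := hn.transfer hl hm (by norm_num) h.cB
  have hR := hn.transfer hl hm (by norm_num) h.cR
  rw [hn.dT_eq, mul_one] at hB hR
  rw [smul_smul, show (1 / 3 : ℝ) * 2 = 2 / 3 by norm_num] at hR
  have hcr := cross_le hn hl hm hD
  obtain ⟨H, P, C, o⟩ := core ⟨hm, hv, phi_next hn hl hm hv h.cB, mass_next hn hl h.cB h.mB⟩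
    h.RB hB hR (h.yl.mix hn hl hm h.yr) (h.yr.mix hn hl hm h.yl).neg
    ((nn_mask_le l.act _).trans hD) hcr
  rw [← wn_thin hm, mask_mask hn] at hcr
  have eU := h.eU
  have eW := h.eW
  have b1 := h.b1
  have b2 := h.b2
  have b3 := h.b3
  have b4 := h.b4
  have eB : ch X.B ᵥ* v = ch H ᵥ* v + ch (P 0) ᵥ* v + ch (P 1) ᵥ* v + ch (P 2) ᵥ* v := by
    rw [o.part]; simp only [add_vecMul]
  have lo : ∀ t, ∃ y ρ, Carr m v (1 / 100) (C t) y ∧ wn m.G ρ ≤ 8 * 10 ^ 14 * m.r ∧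
      X.U + ch (P 0) ᵥ* v = (3 / 4 : ℝ) • X.Fl + (1 / 4 : ℝ) • X.Fr + ρ + y ᵥ* v := by
    intro t
    obtain ⟨y, h1, h2⟩ := o.lo t
    refine ⟨y, _, h1, h2, ?_⟩
    simp only [add_vecMul, sub_vecMul, smul_vecMul]
    linear_combination (norm := module) (3 / 4 : ℝ) • eU + (1 / 4 : ℝ) • eW
  have hi : ∀ t, ∃ y ρ, Carr m v (1 / 100) (C t) y ∧ wn m.G ρ ≤ 8 * 10 ^ 14 * m.r ∧
      X.U + ch (P 0) ᵥ* v + ch (P 1) ᵥ* v + ch X.Fx ᵥ* v =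
        (3 / 4 : ℝ) • (X.Fr + (ch X.Fx ᵥ* v - mask l.act (ch X.Fx ᵥ* v))) +
        (1 / 4 : ℝ) • (X.Fl + (ch X.Fx ᵥ* v - mask l.act (ch X.Fx ᵥ* v))) + ρ + y ᵥ* v := by
    intro t
    obtain ⟨y, h1, h2⟩ := o.hi t
    refine ⟨-y, _, h1.neg, (wn_neg _ _).trans_le h2, ?_⟩
    simp only [add_vecMul, sub_vecMul, smul_vecMul, neg_vecMul]
    linear_combination (norm := module) (1 / 4 : ℝ) • eU + (3 / 4 : ℝ) • eW - eB
  obtain ⟨y1, ρ1, c1, w1, e1⟩ := lo 1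
  obtain ⟨y2, ρ2, c2, w2, e2⟩ := lo 0
  obtain ⟨y3, ρ3, c3, w3, e3⟩ := hi 1
  obtain ⟨y4, ρ4, c4, w4, e4⟩ := hi 2
  generalize hDdef : ch X.Fx ᵥ* v = D at *
  have cP := o.cP
  have cC := o.cC
  have mP := o.mP
  refine ⟨⟨H, P 0, P 2, C 0, C 2, ⟨P 1, C 1, X.Fx, X.U + ch (P 0) ᵥ* v,
    (3 / 4 : ℝ) • X.Fl + (1 / 4 : ℝ) • X.Fr + ρ1,
    (3 / 4 : ℝ) • X.Fr + (1 / 4 : ℝ) • X.Fl + (ρ3 - (mask l.act D - mask m.act D)), y1, y3⟩,
    (3 / 4 : ℝ) • (X.Fr + (D - mask l.act D)) + (1 / 4 : ℝ) • (X.Fl + (D - mask l.act D)) + ρ4,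
    (3 / 4 : ℝ) • X.Fl + (1 / 4 : ℝ) • X.Fr + ρ2, y4, y2⟩,
    o.part, o.ne, o.card, o.sub 0, o.sub 2, ?_, ?_, ?_, ?_, ?_, ?_, o.hH,
    ⟨o.sub 1, h.card, ?_, ?_, ?_, c1, c3, e1, ?_, ?_, ?_, ?_, ?_⟩, rfl, rfl, c4, c2, ?_, e2,
    fun ρ hρ => ?_, fun ρ hρ => ?_⟩
  · have := cP 0; rw [ww0] at this; norm_num at this ⊢; exact this
  · have := cP 2; rw [ww2] at this; norm_num at this ⊢; exact this
  · have := cC 0; rw [ww0] at this; norm_num at this ⊢; exact this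
  · have := cC 2; rw [ww2] at this; norm_num at this ⊢; exact this
  · have := mP 0; rw [ww0] at this; linarith
  · have := mP 2; rw [ww2] at this; linarith
  · have := cP 1; rw [ww1] at this; norm_num at this ⊢; exact this
  · have := cC 1; rw [ww1] at this; norm_num at this ⊢; exact this
  · have := mP 1; rw [ww1] at this; linarith
  · simp only [hDdef]
    linear_combination (norm := module) e3
  · exact (b1.mix b2).add hn hm (by linarith) rfl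
  · exact (b2.mix b1).add hn hm
      (by linarith [wn_sub_le m.G ρ3 (mask l.act D - mask m.act D)]) rfl
  · refine (b3.mix b4).add hn hm (ρ := ρ1 + (mask l.act D - mask m.act D))
      (by linarith [wn_add_le m.G ρ1 (mask l.act D - mask m.act D)]) ?_
    simp only [hDdef]; module
  · refine (b4.mix b3).add hn hm (ρ := ρ3) (by linarith) ?_
    simp only [hDdef]; module
  · simp only [hDdef]; exact e4
  · exact (b4.mix b3).add hn hm (ρ := ρ4 + ρ) (by linarith [wn_add_le m.G ρ4 ρ]) (add_assoc _ _ _)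
  · exact (b1.mix b2).add hn hm (ρ := ρ2 + ρ) (by linarith [wn_add_le m.G ρ2 ρ]) (add_assoc _ _ _)

/-- The child made of the last part of one station and the first part of the next. -/
def mixed (m : Lv Θ) (v : Matrix ι Θ ℝ) (Z Z' : Sp ι Θ) : St ι Θ where
  B := Z.P2 ∪ Z'.P0
  R := Z.C2 ∪ Z'.C0
  Fx := Z.H
  U := Z.FL + Z.yL ᵥ* v
  Fl := Z.FL
  Fr := Z'.FR + -(ch Z.H ᵥ* v - mask m.act (ch Z.H ᵥ* v))
  yl := Z.yL
  yr := Z'.yR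

lemma ch_mono {X Y : Finset ι} (h : X ⊆ Y) (i : ι) : ch X i ≤ ch Y i := by
  by_cases hi : i ∈ X
  · simp [ch, hi, h hi]
  · rw [ch_zero i hi]; exact ch_nonneg _ _

lemma mixed_adj {X X' : St ι Θ} {Z Z' : Sp ι Θ} (h : SpOK m v X Z) (h' : SpOK m v X' Z')
    (hd : ∀ i, ch Z.P2 i + ch Z'.P0 i ≤ 1) (adj : X'.U = X.U + ch X.B ᵥ* v + ch X.Fx ᵥ* v) :
    Z'.X.U = (mixed m v Z Z').U + ch (mixed m v Z Z').B ᵥ* v + ch (mixed m v Z Z').Fx ᵥ* v := by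
  simp only [mixed]
  rw [ch_union hd, ← h.eL, h'.u0, adj, h.u0, h.part]
  simp only [add_vecMul]; abel

theorem mixed_inv (hm : m.OK) {X X' : St ι Θ} {Z Z' : Sp ι Θ} (h : SpOK m v X Z)
    (h' : SpOK m v X' Z') (hd : ∀ i, ch Z.P2 i + ch Z'.P0 i ≤ 1)
    (adj : X'.U = X.U + ch X.B ᵥ* v + ch X.Fx ᵥ* v) : Inv m v (mixed m v Z Z') := by
  have hd' : ∀ i, ch Z.C2 i + ch Z'.C0 i ≤ 1 := fun i => by
    linarith [hd i, ch_mono h.s2 i, ch_mono h'.s0 i]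
  have z0 : wn m.G 0 ≤ 10 ^ 14 * m.r := by rw [wn_zero]; linarith [m.r0]
  have hH := h.hH
  rw [← wn_thin hm] at hH
  refine ⟨union_subset_union h.s2 h'.s0, h.card, ?_, ?_, ?_, h.yL.mono subset_union_left,
    h'.yR.mono subset_union_right, rfl, ?_, by simpa [mixed] using h.bL 0 z0,
    h'.bR _ ((wn_neg _ _).trans_le hH), h.bL _ hH,
    by simp only [mixed, neg_add_cancel_right]; simpa using h'.bR 0 z0⟩
  · have e : ch (mixed m v Z Z').B ᵥ* vv v - m.dT = (ch Z.P2 ᵥ* vv v - (1 / 2 : ℝ) • m.dT) +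
        (ch Z'.P0 ᵥ* vv v - (1 / 2 : ℝ) • m.dT) := by
      simp only [mixed]; rw [ch_union hd, add_vecMul]; module
    rw [e]
    exact (wn_add_le _ _ _).trans (by linarith [h.cP2, h'.cP0])
  · have e : ch (mixed m v Z Z').R ᵥ* vv v - (1 / 3 : ℝ) • m.dT =
        (ch Z.C2 ᵥ* vv v - (1 / 6 : ℝ) • m.dT) + (ch Z'.C0 ᵥ* vv v - (1 / 6 : ℝ) • m.dT) := by
      simp only [mixed]; rw [ch_union hd', add_vecMul]; module
    rw [e]
    exact (wn_add_le _ _ _).trans (by linarith [h.cC2, h'.cC0])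
  · have e0 : ∀ X, ms m.gt v X = ch X ⬝ᵥ mu m v := fun X => (ch_dot X (mu m v)).symm
    have a1 := h.mP2
    have a2 := h'.mP0
    simp only [mixed]
    rw [e0] at a1 a2 ⊢
    rw [ch_union hd, add_dotProduct]
    linarith
  · have a1 := mixed_adj h h' hd adj
    have a2 := h'.eR
    simp only [mixed] at a1 ⊢
    linear_combination (norm := module) a2 - a1

end Vale.Agent.P262
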